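import Vale.Agent.P011.H496.Typ.Kras
import Vale.Agent.P011.H699.Odd.TypDef

/-!
# Elements close to a separable element of maximal degree: the statement of TypDef (helper496)
-/

open Module Polynomial

set_option linter.unusedSectionVars false
set_option linter.style.haveILetI false

namespace Vale.Agent.P011.H496.Typ

open Vale.Agent.P011.H738 Vale.Agent.P011.H271 Vale.Agent.P011.H271.S3 Vale.Agent.P011.H698
open Vale.Agent.P011.H699.Odd.TypC

/-- **Krasner.** -/
theorem kras_ff {k K D : Type} [Field k] [Field K] [DivisionRing D] [Algebra k K] [Algebra k D]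
    [Algebra K D] [IsScalarTower k K D] [GFF k] [FiniteDimensional k K]
    [Algebra.IsCentral K D] [FiniteDimensional K D] {n N : ℕ} (hdeg : finrank K D = n ^ 2)
    (hle : ∀ x : D, (minpoly K x).natDegree ≤ n) (B : Basis (Fin N) k D) {T : Set (Place k)}
    (hT : T.Finite) (hT0 : T.Nonempty) : Kras (K := K) B n T := by
  intro t ht hsep N₀ _ _ _ _ hN₀
  haveI : GFF K := Hey.H63.gff_of_finite (k := k)
  haveI : GFF N₀ := Hey.H63.gff_of_finite (k := K)
  obtain ⟨δ, hδ, h⟩ := krasner (N₀ := N₀) hdeg hle B hT hT0 ht hsep hN₀.splits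
  refine ⟨δ, hδ, fun x hx => ⟨(h x hx).2.1, (h x hx).1, fun V hV W hW => ?_⟩⟩
  rw [Polynomial.map_map, ← IsScalarTower.algebraMap_eq K N₀ W.comp]
  exact (h x hx).2.2 V hV W hW

end Vale.Agent.P011.H496.Typ
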