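import Vale.Agent.P011.H496.Spl.SplG
import Vale.Agent.P011.H74.Odd.E13F

/-!
# Split elements over a global function field: the minimal polynomials are separable (helper496)

Every odd degree, every characteristic (the degree may be divisible by the characteristic).
-/

open Module Polynomial Matrix Topology

set_option linter.unusedSectionVars false
set_option linter.style.haveILetI false

namespace Vale.Agent.P011.H496.Typ

open Vale.Agent.P011.H738 Vale.Agent.P011.H271 Vale.Agent.P011.H271.S3 Vale.Agent.P011.H698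
open Vale.Agent.P011.H961 Vale.Agent.P011.H487.Spl Vale.Agent.P011.H271.StarF
open Vale.Agent.P011.H487 (HForm)
open Vale.Agent.P011.H182 (na coord_le_na)
open Vale.Agent.P011.H496.Spl

/-- The minimal polynomial is separable if the local characteristic polynomial is split and
separable. -/
theorem sep_of_ss {K D L : Type} [Field K] [DivisionRing D] [Algebra K D] [Field L] {n : ℕ}
    {φ : K →+* L} {g : D →+* Matrix (Fin n) (Fin n) L}
    (hg : ∀ c : K, g (algebraMap K D c) = algebraMap L _ (φ c)) {x : D} (hx : IsIntegral K x)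
    (hdeg : (minpoly K x).natDegree ≤ n) (h : SS (g x).charpoly) : (minpoly K x).Separable := by
  let i1 : Algebra K L := φ.toAlgebra
  let G : D →ₐ[K] Matrix (Fin n) (Fin n) L :=
    { g with
      commutes' := fun c => by
        change g (algebraMap K D c) = _
        rw [hg]
        ext i j
        rw [Matrix.algebraMap_matrix_apply, Matrix.algebraMap_matrix_apply]
        rfl }
  have h1 : SS (G x).charpoly := h
  obtain ⟨-, -, h2⟩ := minpoly_of_ss G hx hdeg h1
  rw [← h2] at h1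
  exact (separable_map _).mp h1.2

variable {k K D : Type} [Field k] [GFF k] [Field K] [StarRing K] [DivisionRing D] [StarRing D]
  [Algebra k K] [Algebra k D] [Algebra K D] [IsScalarTower k K D] [StarModule K D] {n N : ℕ}

/-- The required property at the places above `v`. -/
def GoodS (K : Type) [Field K] [Algebra k K] [Algebra K D] (n : ℕ) (v : Place k) (x : D) : Prop :=
  GoodV K n v x ∧ (minpoly K x).Separable

/-- **The local statement**, for a local model. -/
theorem loc_gen_s (hfix : ∀ x : K, star x = x ↔ x ∈ Set.range (algebraMap k K))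
    (hint : ∀ x : D, IsIntegral K x) (hdeg : ∀ x : D, (minpoly K x).natDegree ≤ n)
    (hst : ∀ (c : k) (x : D), star (c • x) = c • star x) (B : Basis (Fin N) k D) {v : Place k}
    {L : Type} [NontriviallyNormedField L] [IsUltrametricDist L] [CompleteSpace L] {φ : K →+* L}
    (hd : DenseRange φ) (hφ : ∀ c : k, ‖φ (algebraMap k K c)‖ = v.abv c)
    {g : D →+* Matrix (Fin n) (Fin n) L} (hg : ∀ c : K, g (algebraMap K D c) =
      algebraMap L _ (φ c))
    (hup : ∃ C : ℝ, 1 ≤ C ∧ ∀ (c : ℝ) (x : D), 0 ≤ c → Bd B v c x → Eb (C * c) (g x))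
    {E : Set (Matrix (Fin n) (Fin n) L)ˣ}
    (hE : E ⊆ closure (Set.range fun u : UA D =>
      Units.map (g : D →* Matrix (Fin n) (Fin n) L) (u : Dˣ)))
    (hloc : ∀ hs : Finset (Matrix (Fin n) (Fin n) L), (∀ A ∈ hs, A.det ≠ 0) →
      ∃ a w : (Matrix (Fin n) (Fin n) L)ˣ, a ∈ E ∧ w ∈ E ∧ ∃ M0 : ℕ, ∀ M, M0 ≤ M → ∀ A ∈ hs,
        NW n fun i => ‖(A * ((a * w * a⁻¹ * w⁻¹ : (Matrix (Fin n) (Fin n) L)ˣ) :
          Matrix (Fin n) (Fin n) L) ^ M).charpoly.coeff i‖)
    (hs : Finset D) (hu : ∀ h ∈ hs, h * star h = 1) :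
    ∃ M0 : ℕ, ∀ M, M0 ≤ M → ∃ (a w : D) (ε : ℝ), a * star a = 1 ∧ w * star w = 1 ∧ 0 < ε ∧
      ∀ a' w' : D, a' * star a' = 1 → w' * star w' = 1 → Sm B v ε (a' - a) → Sm B v ε (w' - w) →
        ∀ h ∈ hs, GoodS K n v (h * cm a' w' ^ M) := by
  classical
  obtain ⟨A0, W0, hA0, hW0, M0, hM0⟩ := hloc (hs.image g) (by
    intro A hA
    obtain ⟨h, hh, rfl⟩ := Finset.mem_image.1 hA
    intro h0
    have h1 : (g h * g (star h)).det = 1 := by
      rw [← map_mul, hu h hh, map_one, Matrix.det_one]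
    rw [Matrix.det_mul, h0, zero_mul] at h1
    exact zero_ne_one h1)
  refine ⟨M0, fun M hM => ?_⟩
  -- the open set
  let O : Set (Matrix (Fin n) (Fin n) L × Matrix (Fin n) (Fin n) L × Matrix (Fin n) (Fin n) L ×
      Matrix (Fin n) (Fin n) L) := {p | ∀ h ∈ hs, NW n fun i =>
        ‖(g h * (p.1 * p.2.1 * p.2.2.1 * p.2.2.2) ^ M).charpoly.coeff i‖}
  have hO : IsOpen O := by
    have h1 : O = ⋂ h ∈ hs, (fun p : Matrix (Fin n) (Fin n) L × Matrix (Fin n) (Fin n) L ×
        Matrix (Fin n) (Fin n) L × Matrix (Fin n) (Fin n) L =>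
          g h * (p.1 * p.2.1 * p.2.2.1 * p.2.2.2) ^ M) ⁻¹'
        {A : Matrix (Fin n) (Fin n) L | NW n fun i => ‖A.charpoly.coeff i‖} := by
      ext p
      rw [Set.mem_iInter₂]
      exact Iff.rfl
    rw [h1]
    refine isOpen_biInter_finset fun h _ => isOpen_nw.preimage ?_
    exact continuous_const.mul ((((continuous_fst.mul (continuous_fst.comp continuous_snd)).mul
      (continuous_fst.comp (continuous_snd.comp continuous_snd))).mul
      (continuous_snd.comp (continuous_snd.comp continuous_snd))).pow M)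
  let F : (Matrix (Fin n) (Fin n) L)ˣ × (Matrix (Fin n) (Fin n) L)ˣ →
      Matrix (Fin n) (Fin n) L × Matrix (Fin n) (Fin n) L × Matrix (Fin n) (Fin n) L ×
      Matrix (Fin n) (Fin n) L := fun p =>
    ((p.1 : Matrix (Fin n) (Fin n) L), (p.2 : Matrix (Fin n) (Fin n) L),
      ((p.1⁻¹ : (Matrix (Fin n) (Fin n) L)ˣ) : Matrix (Fin n) (Fin n) L),
      ((p.2⁻¹ : (Matrix (Fin n) (Fin n) L)ˣ) : Matrix (Fin n) (Fin n) L))
  have hF : Continuous F := by
    refine Continuous.prodMk (Units.continuous_val.comp continuous_fst)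
      (Continuous.prodMk (Units.continuous_val.comp continuous_snd)
      (Continuous.prodMk (Units.continuous_val.comp (continuous_inv.comp continuous_fst))
      (Units.continuous_val.comp (continuous_inv.comp continuous_snd))))
  have hmem : (A0, W0) ∈ F ⁻¹' O := by
    intro h hh
    have h1 := hM0 M hM (g h) (Finset.mem_image_of_mem g hh)
    exact h1
  have hcl : (A0, W0) ∈ closure ((Set.range fun u : UA D =>
      Units.map (g : D →* Matrix (Fin n) (Fin n) L) (u : Dˣ)) ×ˢ (Set.range fun u : UA D =>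
      Units.map (g : D →* Matrix (Fin n) (Fin n) L) (u : Dˣ))) := by
    rw [closure_prod_eq]
    exact ⟨hE hA0, hE hW0⟩
  obtain ⟨⟨X, Y⟩, hXY, ⟨a, ha⟩, ⟨w, hw⟩⟩ := mem_closure_iff.1 hcl _ (hO.preimage hF) hmem
  have hga : ∀ u : UA D, (((Units.map (g : D →* Matrix (Fin n) (Fin n) L) (u : Dˣ))⁻¹ :
      (Matrix (Fin n) (Fin n) L)ˣ) : Matrix (Fin n) (Fin n) L) = g (star ((u : Dˣ) : D)) := by
    intro u
    rw [← ua_inv]
    rfl
  have hp : ((g ((a : Dˣ) : D)), (g ((w : Dˣ) : D)), (g (star ((a : Dˣ) : D))),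
      (g (star ((w : Dˣ) : D)))) ∈ O := by
    have h1 : F (X, Y) ∈ O := hXY
    have h2 : F (X, Y) = ((g ((a : Dˣ) : D)), (g ((w : Dˣ) : D)), (g (star ((a : Dˣ) : D))),
        (g (star ((w : Dˣ) : D)))) := by
      change ((X : Matrix (Fin n) (Fin n) L), (Y : Matrix (Fin n) (Fin n) L),
        ((X⁻¹ : (Matrix (Fin n) (Fin n) L)ˣ) : Matrix (Fin n) (Fin n) L),
        ((Y⁻¹ : (Matrix (Fin n) (Fin n) L)ˣ) : Matrix (Fin n) (Fin n) L)) = _
      have ha' : Units.map (g : D →* Matrix (Fin n) (Fin n) L) (a : Dˣ) = X := ha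
      have hw' : Units.map (g : D →* Matrix (Fin n) (Fin n) L) (w : Dˣ) = Y := hw
      rw [← ha', ← hw', hga, hga]
      rfl
    rwa [h2] at h1
  obtain ⟨δ, hδ, hball⟩ := exists_ball4 hO hp
  obtain ⟨C, hC, hup⟩ := hup
  obtain ⟨C', hC', -, -, hstar, -⟩ := exists_const B hst
  have hC0 : 0 < C := zero_lt_one.trans_le hC
  have hC'0 : 0 < C' v := zero_lt_one.trans_le (hC' v)
  have hε : 0 < δ / (C * C' v) := div_pos hδ (mul_pos hC0 hC'0)
  refine ⟨((a : Dˣ) : D), ((w : Dˣ) : D), δ / (C * C' v), a.2, w.2, hε,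
    fun a' w' ha' hw' h1 h2 h hh => ?_⟩
  have e1 : ∀ x : D, Sm B v (δ / (C * C' v)) x → Eb δ (g x) := by
    intro x hx
    have h3 := hup _ x hε.le hx.bd
    intro i j
    refine (h3 i j).trans ?_
    rw [mul_div_assoc', div_le_iff₀ (mul_pos hC0 hC'0)]
    have h4 : C * δ * 1 ≤ C * δ * C' v := mul_le_mul_of_nonneg_left (hC' v) (mul_pos hC0 hδ).le
    nlinarith [h4]
  have e2 : ∀ x : D, Sm B v (δ / (C * C' v)) x → Eb δ (g (star x)) := by
    intro x hx
    have h3 := hup _ (star x) (mul_nonneg hC'0.le hε.le) (hstar v _ x hε.le hx.bd)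
    intro i j
    refine (h3 i j).trans (le_of_eq ?_)
    field_simp
  have hq : ((g a'), (g w'), (g (star a')), (g (star w'))) ∈ O := by
    refine hball _ ?_ ?_ ?_ ?_
    · change Eb δ (g a' - g _)
      rw [← map_sub]
      exact e1 _ h1
    · change Eb δ (g w' - g _)
      rw [← map_sub]
      exact e1 _ h2
    · change Eb δ (g (star a') - g (star _))
      rw [← map_sub, ← star_sub]
      exact e2 _ h1
    · change Eb δ (g (star w') - g (star _))
      rw [← map_sub, ← star_sub]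
      exact e2 _ h2
  have h3 : NW n fun i => ‖(g (h * cm a' w' ^ M)).charpoly.coeff i‖ := by
    have h4 := hq h hh
    have e3 : g (h * cm a' w' ^ M) = g h * (g a' * g w' * g (star a') * g (star w')) ^ M := by
      rw [map_mul, map_pow, cm, map_mul, map_mul, map_mul]
    rw [e3]
    exact h4
  have h5 : SS (g (h * cm a' w' ^ M)).charpoly := ss_of_nw h3
  have hx : (h * cm a' w' ^ M) * star (h * cm a' w' ^ M) = 1 :=
    uni_mul (hu h hh) (uni_pow (uni_cm ha' hw') M)
  have h6 : SS (g (star (h * cm a' w' ^ M))).charpoly :=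
    ss_inv (by rw [← map_mul, uni_comm hx, map_one]) h5
  refine ⟨fun W hW => good_of_ss hfix hd hφ hg (hint _) (hdeg _) h5 h6 hW, ?_⟩
  exact sep_of_ss hg (hint _) (hdeg _) h5

/-- **The local statement.** -/
theorem loc_at_s (hk : IsGlobalFunctionField k) (hA : Anis k K D n) {m : ℕ} (hn : n = 2 * m + 1)
    (hm : m ≠ 0) (hdeg : ∀ x : D, (minpoly K x).natDegree ≤ n) (B : Basis (Fin N) k D)
    {v : Place k} (hv : SplAt K D n v) (hs : Finset D) (hu : ∀ h ∈ hs, h * star h = 1) :
    ∃ M0 : ℕ, ∀ M, M0 ≤ M → ∃ (a w : D) (ε : ℝ), a * star a = 1 ∧ w * star w = 1 ∧ 0 < ε ∧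
      ∀ a' w' : D, a' * star a' = 1 → w' * star w' = 1 → Sm B v ε (a' - a) → Sm B v ε (w' - w) →
        ∀ h ∈ hs, GoodS K n v (h * cm a' w' ^ M) := by
  classical
  have hcen := hA.central
  have hsim := hA.simple
  have hn0 : n ≠ 0 := by omega
  have hn3 : 3 ≤ n := by omega
  have : NeZero n := ⟨hn0⟩
  have hfd : FiniteDimensional K D := Module.finite_of_finrank_pos (by
    rw [hA.finrank_eq]
    positivity)
  have hint : ∀ x : D, IsIntegral K x := fun x => Algebra.IsIntegral.isIntegral x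
  have hst : ∀ (c : k) (x : D), star (c • x) = c • star x := H519.star_smul_of_anis hA
  by_cases hsp : Nonempty (K →ₐ[k] v.comp)
  · obtain ⟨φ⟩ := hsp
    let _ := nnfPlace v
    have hnorm : ∀ c : k, ‖(φ : K →+* v.comp) (algebraMap k K c)‖ = v.abv c := fun c => by
      change ‖φ (algebraMap k K c)‖ = _
      rw [φ.commutes, norm_alg]
    obtain ⟨g, hg⟩ := hv v.comp (φ : K →+* v.comp) hnorm
    have hd : DenseRange (φ : K →+* v.comp) := by
      have h1 : DenseRange (algebraMap k v.comp) := by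
        rw [Metric.denseRange_iff]
        intro x ε hε
        obtain ⟨a, ha⟩ := dense_alg v x hε
        exact ⟨a, by rwa [dist_eq_norm]⟩
      intro y
      refine closure_mono ?_ (h1 y)
      rintro _ ⟨c, rfl⟩
      exact ⟨algebraMap k K c, φ.commutes c⟩
    refine loc_gen_s hA.fixed hint hdeg hst B hd hnorm hg
      (exists_up B v (φ : K →+* v.comp) hnorm hg) (E := Set.univ) ?_ ?_ hs hu
    · have h := H800.dense_gl hA hn0 hg
      rw [h.closure_eq]
    · intro hs' h'
      obtain ⟨a, w, h1⟩ := loc_gl hs' h'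
      exact ⟨a, w, Set.mem_univ _, Set.mem_univ _, h1⟩
  · rw [not_nonempty_iff] at hsp
    obtain ⟨L, _, _, _, _, _, φ, h1, h2, h3, h4, h5, h6⟩ :=
      exists_quad_field hA.fixed hA.star_ne v hsp
    have hnorm : ∀ c : k, ‖φ (algebraMap k K c)‖ = v.abv c := fun c => by
      rw [h4, h5, norm_alg]
    obtain ⟨g, hg⟩ := hv L φ hnorm
    have hne : ∃ x : L, star x ≠ x := by
      obtain ⟨x, hx⟩ := hA.star_ne
      refine ⟨φ x, fun h => hx (φ.injective ?_)⟩
      rw [h2, h]
    obtain ⟨H, hH, hdet, hgH⟩ := H756.exists_herm hn0 hA.finrank_eq hne φ h2 g hg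
    have hiso := hform_iso (L := L) fun j hj H' hH' =>
      H308.isotropic hk hA.fixed hA.star_ne h1 φ h2 h3 hj hH'
    refine loc_gen_s hA.fixed hint hdeg hst B h3 hnorm hg (exists_up B v φ hnorm hg)
      (E := (UH H : Set (Matrix (Fin n) (Fin n) L)ˣ)) ?_ ?_ hs hu
    · exact H800.dense_u hA h1 φ h2 h3 hg hH hdet hgH
    · intro hs' h'
      obtain ⟨a, w, ha, hw, h7⟩ := loc_u hne h1 hiso hn hH hdet hs' h'
      exact ⟨a, w, ha, hw, h7⟩

/-- **(LOC) over function fields: the split elements.** -/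
theorem exists_split_s (hk : IsGlobalFunctionField k) (hA : Anis k K D n) (hn : Odd n) (hn3 : 3 ≤ n)
    {Ω : Type} [Field Ω] [Algebra K Ω] (f : D →ₐ[K] Matrix (Fin n) (Fin n) Ω)
    (B : Basis (Fin N) k D) {T : Set (Place k)} (hT : T.Finite) (S : Finset (Place k))
    (hST : ∀ v ∈ S, v ∉ T) (hS : ∀ v ∈ S, SplAt K D n v) (hs : Finset D)
    (hu : ∀ h ∈ hs, h * star h = 1) {q : ℕ} (hq : q ≠ 0) {ε : ℝ} (hε : 0 < ε) :
    ∃ g : SUA f, Nr B T ε ((g : Dˣ) : D) ∧ ∀ h ∈ hs, ∀ v ∈ S,
      GoodS K n v (h * ((g : Dˣ) : D) ^ q) := by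
  classical
  obtain ⟨m, hm⟩ := hn
  have hcen := hA.central
  have hsim := hA.simple
  have hfd : FiniteDimensional K D := Module.finite_of_finrank_pos (by
    rw [hA.finrank_eq]
    positivity)
  have hst : ∀ (c : k) (x : D), star (c • x) = c • star x := H519.star_smul_of_anis hA
  have hdeg : ∀ x : D, (minpoly K x).natDegree ≤ n := fun x => W.natDegree_le (by omega) f x
  have hl : ∀ v : Place k, ∃ M0 : ℕ, v ∈ S → ∀ M, M0 ≤ M → ∃ (a w : D) (ε : ℝ),
      a * star a = 1 ∧ w * star w = 1 ∧ 0 < ε ∧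
      ∀ a' w' : D, a' * star a' = 1 → w' * star w' = 1 → Sm B v ε (a' - a) → Sm B v ε (w' - w) →
        ∀ h ∈ hs, GoodS K n v (h * cm a' w' ^ M) := by
    intro v
    by_cases hv : v ∈ S
    · obtain ⟨M0, h⟩ := loc_at_s hk hA hm (by omega) hdeg B (hS v hv) hs hu
      exact ⟨M0, fun _ => h⟩
    · exact ⟨0, fun h => absurd h hv⟩
  choose M0 hM0 using hl
  set M1 : ℕ := ∑ v ∈ S, M0 v with hM1
  have hMq : ∀ v ∈ S, M0 v ≤ M1 * q := fun v hv =>
    (Finset.single_le_sum (fun _ _ => Nat.zero_le _) hv).trans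
      (Nat.le_mul_of_pos_right _ (Nat.pos_of_ne_zero hq))
  have hl2 : ∀ v : Place k, ∃ (a w : D) (ε : ℝ), a * star a = 1 ∧ w * star w = 1 ∧ 0 < ε ∧
      (v ∈ S → ∀ a' w' : D, a' * star a' = 1 → w' * star w' = 1 → Sm B v ε (a' - a) →
        Sm B v ε (w' - w) → ∀ h ∈ hs, GoodS K n v (h * cm a' w' ^ (M1 * q))) := by
    intro v
    by_cases hv : v ∈ S
    · obtain ⟨a, w, ε, h1, h2, h3, h4⟩ := hM0 v hv (M1 * q) (hMq v hv)
      exact ⟨a, w, ε, h1, h2, h3, fun _ => h4⟩
    · exact ⟨1, 1, 1, by rw [star_one, mul_one], by rw [star_one, mul_one], one_pos,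
        fun h => absurd h hv⟩
  choose a w e ha hw he hgood using hl2
  obtain ⟨η, hη, hnear⟩ := nr_cm hst B T M1 hε
  -- the weak approximation
  have hP : ((S : Set (Place k)) ∪ T).Finite := S.finite_toSet.union hT
  have hone : (1 : D) * star 1 = 1 := by rw [star_one, mul_one]
  obtain ⟨x, hx, hx'⟩ := WauF.wa_unitaryF hA B hP
    (u := fun v => if v ∈ S then a v else 1) (fun v _ => by
      by_cases hv : v ∈ S
      · simp only [hv, if_true]
        exact ha v
      · simp only [hv, if_false]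
        exact hone) (ε := fun v => if v ∈ S then e v else η) (fun v => by
      by_cases hv : v ∈ S
      · simp only [hv, if_true]
        exact he v
      · simp only [hv, if_false]
        exact hη)
  obtain ⟨y, hy, hy'⟩ := WauF.wa_unitaryF hA B hP
    (u := fun v => if v ∈ S then w v else 1) (fun v _ => by
      by_cases hv : v ∈ S
      · simp only [hv, if_true]
        exact hw v
      · simp only [hv, if_false]
        exact hone) (ε := fun v => if v ∈ S then e v else η) (fun v => by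
      by_cases hv : v ∈ S
      · simp only [hv, if_true]
        exact he v
      · simp only [hv, if_false]
        exact hη)
  have hcu : cm x y * star (cm x y) = 1 := uni_cm hx hy
  have hgu : cm x y ^ M1 * star (cm x y ^ M1) = 1 := uni_pow hcu M1
  have hdet : (f (cm x y ^ M1)).det = 1 := by
    have h1 : (f (cm x y)).det = 1 := by
      have h2 : (f x).det * (f (star x)).det = 1 := by
        rw [← Matrix.det_mul, ← map_mul, hx, map_one, Matrix.det_one]
      have h3 : (f y).det * (f (star y)).det = 1 := by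
        rw [← Matrix.det_mul, ← map_mul, hy, map_one, Matrix.det_one]
      rw [cm, map_mul, map_mul, map_mul, Matrix.det_mul, Matrix.det_mul, Matrix.det_mul]
      calc (f x).det * (f y).det * (f (star x)).det * (f (star y)).det
          = ((f x).det * (f (star x)).det) * ((f y).det * (f (star y)).det) := by ring
        _ = 1 := by rw [h2, h3, one_mul]
    rw [map_pow, Matrix.det_pow, h1, one_pow]
  refine ⟨⟨⟨cm x y ^ M1, star (cm x y ^ M1), hgu, uni_comm hgu⟩, hgu, hdet⟩, ?_, ?_⟩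
  · refine hnear x y ?_ ?_
    · intro v hv
      have h1 := hx' v (Set.mem_union_right _ hv)
      have hvS : v ∉ S := fun h => hST v h hv
      simp only [hvS, if_false] at h1
      exact sm_of_na B h1
    · intro v hv
      have h1 := hy' v (Set.mem_union_right _ hv)
      have hvS : v ∉ S := fun h => hST v h hv
      simp only [hvS, if_false] at h1
      exact sm_of_na B h1
  · intro h hh v hv
    have h1 := hx' v (Set.mem_union_left _ hv)
    have h2 := hy' v (Set.mem_union_left _ hv)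
    simp only [hv, if_true] at h1 h2
    have h3 := hgood v hv x y hx hy (sm_of_na B h1) (sm_of_na B h2) h hh
    rw [pow_mul] at h3
    exact h3

/-- **Elements of reduced norm one close to one of degree `n`**, separable over `K`. -/
theorem exists_base (hk : IsGlobalFunctionField k) (hA : Anis k K D n) (hn : Odd n) (hn3 : 3 ≤ n)
    {Ω : Type} [Field Ω] [Algebra K Ω] (f : D →ₐ[K] Matrix (Fin n) (Fin n) Ω)
    (B : Basis (Fin N) k D) {T : Set (Place k)} (hT : T.Finite)
    (hTS : ∀ v, v ∉ T → SplAt K D n v) {η : ℝ} (hη : 0 < η) :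
    ∃ g : SUA f, Nr B T η ((g : Dˣ) : D) ∧ (minpoly K ((g : Dˣ) : D)).natDegree = n ∧
      (minpoly K ((g : Dˣ) : D)).Separable := by
  classical
  haveI : FiniteDimensional k K := (H519.quad hA.fixed hA.star_ne).1
  haveI : GFF K := Hey.H63.gff_of_finite (k := k)
  obtain ⟨v0, hv0', -⟩ := H519.exists_split_place hk hA (by omega) hT.toFinset 0
  have hv0 : v0 ∉ T := fun h => hv0' (hT.mem_toFinset.2 h)
  obtain ⟨g, hg, hgs⟩ := exists_split_s hk hA hn hn3 f B hT {v0} (by
    intro v hv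
    rw [Finset.mem_singleton] at hv
    rwa [hv]) (by
    intro v hv
    rw [Finset.mem_singleton] at hv
    rw [hv]
    exact hTS v0 hv0) {1} (by
    intro h hh
    rw [Finset.mem_singleton] at hh
    rw [hh, star_one, mul_one]) (q := 1) one_ne_zero hη
  obtain ⟨h1, h2⟩ := hgs 1 (Finset.mem_singleton_self _) v0 (Finset.mem_singleton_self _)
  obtain ⟨W0, hW0⟩ := H511.FF.exists_above_ab (K := K) v0
  have h3 := (h1 W0 hW0).1
  rw [pow_one, one_mul] at h2 h3
  exact ⟨g, hg, h3, h2⟩

end Vale.Agent.P011.H496.Typ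

namespace Vale.Agent.P011.H496.Typ

open Vale.Agent.P011.H738 Vale.Agent.P011.H271 Vale.Agent.P011.H271.S3 Vale.Agent.P011.H973.PF
open Vale.Agent.P011.H511.FF Vale.Agent.P011.H698 Vale.Agent.P011.H704.HQ
open Vale.Agent.P011.H271.StarF Vale.Agent.P011.H74.Odd
open Vale.Agent.P011.H496.Spl (SplAt)
open Vale.Agent.P011.H699.Odd

variable {k K D Ω : Type} [Field k] [Field K] [StarRing K] [DivisionRing D] [StarRing D]
  [Algebra k K] [Algebra k D] [Algebra K D] [IsScalarTower k K D] [StarModule K D] {n N : ℕ}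
  [Field Ω] [Algebra K Ω]

/-- **The split elements, in the letters of the frame**, every characteristic. -/
theorem splE_all (hk : IsGlobalFunctionField k) [GFF k] (hA : Anis k K D n) (ho : Odd n)
    (hn3 : 3 ≤ n) (f : D →ₐ[K] Matrix (Fin n) (Fin n) Ω)
    (B : Basis (Fin N) k D) {ι : Type} {ν : ι → AbsoluteValue D ℝ} (hν : NuF k K D B ν)
    {T : Set (Place k)} (hT : T.Finite) (hTA : Adiv k K D ⊆ T)
    (hTS : ∀ v, v ∉ T → SplAt K D n v) {R : D →* K}
    (hdet : ∀ x, (f x).det = algebraMap K Ω (R x)) : SplE n R ν (SpF (plF K T)) := by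
  classical
  have hfd : FiniteDimensional K D := Module.finite_of_finrank_pos (by
    rw [hA.finrank_eq]
    positivity)
  haveI : FiniteDimensional k K := (H519.quad hA.fixed hA.star_ne).1
  haveI : GFF K := Hey.H63.gff_of_finite (k := k)
  intro j hs hsU ε hε
  obtain ⟨δ, hδ, hδν⟩ := hν.le ε hε
  obtain ⟨g, hg, hgs⟩ := exists_split_s hk hA ho hn3 f B hT j.1 j.2.2
    (fun v hv => hTS v (j.2.2 v hv)) (hs.image fun h : Dˣ => (h : D)) (by
      intro h hh
      obtain ⟨u, hu, rfl⟩ := Finset.mem_image.1 hh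
      exact hsU u hu) (q := 1) one_ne_zero hδ
  refine ⟨(g : Dˣ), (mem_Gg_iff hdet).2 g.2, hδν _ fun v hv => hg v (hTA hv), fun h hh => ?_⟩
  have h1 := hgs (h : D) (Finset.mem_image_of_mem _ hh)
  rw [pow_one, ← Units.val_mul] at h1
  obtain ⟨v0, hv0⟩ := j.2.1
  obtain ⟨W0, hW0⟩ := exists_above_ab (K := K) v0
  refine ⟨((h1 v0 hv0).1 W0 hW0).1, SpF.of_minpoly (h1 v0 hv0).2 fun V hV => ?_⟩
  obtain ⟨v, hv, hvV⟩ := hV
  exact ((h1 v hv).1 V hvV).2

end Vale.Agent.P011.H496.Typ
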