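import Vale.Agent.P011.H496.Typ.Comm

/-!
# The commutators of the unitary elements close to one: the abstract theorem (helper496)
-/

open Module Polynomial Topology Filter
open scoped commutatorElement

set_option linter.unusedSectionVars false

namespace Vale.Agent.P011.H496.Typ

open Vale.Agent.P011.H699.Odd

variable {K : Type} [Field K] {OT : Subring K}
  {D : Type} [StarRing K] [DivisionRing D] [StarRing D] [Algebra K D]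
  {n : ℕ} {N : D →* K} {ι : Type} {ν : ι → AbsoluteValue D ℝ} {ε : ℝ}
  [TopologicalSpace D] [IsTopologicalDivisionRing D] [ContinuousStar D]

/-- **(E3)**: the commutators of the unitary elements close to one, the elements of the tower are
approximated by norms from a fixed field. -/
theorem main_abs (hN : Rn n N) (hν : Fa ν) (hε0 : 0 < ε) (hε : ε ≤ 1)
    (hνt : ∀ ε : ℝ, 0 < ε → ∀ᶠ x in 𝓝 (1 : D), ∀ i, ν i (x - 1) < ε)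
    (hSub : ∀ O ∈ 𝓝 (1 : D), ∃ S : Subgroup Dˣ,
      (∀ᶠ x in 𝓝 (1 : D), ∀ u : Dˣ, (u : D) = x → u ∈ S) ∧ ∀ u ∈ S, (u : D) ∈ O)
    (hNt : ∀ O ∈ 𝓝 (1 : D), ∀ᶠ x in 𝓝 (1 : D), algebraMap K D (N x) ∈ O)
    {t₀ : Dˣ} (ht₀ : t₀ ∈ Gg N) (ht₀b : Bl ν ε t₀)
    (hG : ∀ c' ∈ OT, c' ≠ 0 → ∃ cK ∈ OT, cK ≠ 0 ∧
      ∀ᶠ x in 𝓝 (t₀ : D), GoodC OT n N cK c' x)
    (hU : ∀ O ∈ 𝓝 (1 : D), ∃ c' ∈ OT, c' ≠ 0 ∧ ∀ᶠ v in 𝓝 (t₀ : D), ∀ (F : Type) [Field F]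
      [Algebra K F] (φ : F →ₐ[K] D), finrank K F = n → (∀ y, φ y ∈ Algebra.adjoin K {v}) →
        ∀ y : F, Near OT F c' y → φ y ∈ O) :
    ∃ cK ∈ OT, cK ≠ 0 ∧ ∃ O ∈ 𝓝 (1 : D), ∀ (E : Type) [CommGroup E] (X : Set (Dˣ → E)),
      Fam N ν ε X → ∀ u₁ u₂ : Dˣ, u₁ ∈ Ug D → u₂ ∈ Ug D → (u₁ : D) ∈ O → (u₂ : D) ∈ O →
        ∀ w₁ w₂ : K, Near OT K cK w₁ → Near OT K cK w₂ → Qt N u₁ w₁ → Qt N u₂ w₂ →
          ∀ χ ∈ X, χ ⁅u₁, u₂⁆ = 1 := by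
  -- the first step
  obtain ⟨b, hb, hb0, hG1⟩ := hG 1 (one_mem _) one_ne_zero
  obtain ⟨C₀, _, _, _, _, hA₀, F₀, φ₀, hF₀, hφ₀⟩ := hG1.self_of_nhds
  have hI1 := inv1T (OT := OT) hN hν hε0 hε hνt ht₀ ht₀b hG1
  set O₁ : Set D := {x | (∀ i, ν i (x - 1) < ε) ∧ ∀ (E : Type) [CommGroup E] (X : Set (Dˣ → E)),
    Fam N ν ε X → ∀ χ ∈ X, ∀ (u : Dˣ) (w : K), u ∈ Ug D → Near OT K b w → Qt N u w →
      ∀ h : Dˣ, h ∈ Gg N → (h : D) = x → χ (u * h * u⁻¹) = χ h} with hO₁def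
  have hO₁ : O₁ ∈ 𝓝 (1 : D) := by
    filter_upwards [hI1, hνt ε hε0] with x h1 h2
    refine ⟨h2, ?_⟩
    intro E _ X hX
    exact h1 hX
  have hOν : ∀ x ∈ O₁, ∀ i, ν i (x - 1) < ε := fun x hx => hx.1
  have hI : Inv1S N ν ε (Near OT K b) O₁ := by
    intro E _ X hX χ hχ u w hu hw huw h hh hhO
    exact hhO.2 E X hX χ hχ u w hu hw huw h hh rfl
  -- the subgroup
  obtain ⟨S, hS, hSO⟩ := hSub O₁ hO₁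
  set O₅ : Set D := {z | ∀ e : Dˣ, (e : D) = z * (star z)⁻¹ → e ∈ S} with hO₅def
  have hO₅n : O₅ ∈ 𝓝 (1 : D) := (tendsto_quot (D := D)).eventually hS
  have hO₅ : ∀ z ∈ O₅, ∀ e : Dˣ, (e : D) = z * (star z)⁻¹ → e ∈ S := fun z hz => hz
  obtain ⟨c', hc', hc'0, hUv⟩ := hU O₅ hO₅n
  obtain ⟨cK, hcK, hcK0, hG2⟩ := hG c' hc' hc'0
  -- the neighbourhood
  have hc : Tendsto (fun x : D => x * t₀) (𝓝 1) (𝓝 (t₀ : D)) := by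
    have h1 : Tendsto (fun x : D => x * t₀) (𝓝 1) (𝓝 (1 * (t₀ : D))) :=
      (continuous_mul_const (t₀ : D)).tendsto 1
    rwa [one_mul] at h1
  have hct : Tendsto (fun x : D => t₀ * x * (t₀ : D)⁻¹ * x⁻¹) (𝓝 1) (𝓝 (1 : D)) := by
    have h1 : Tendsto (fun x : D => (t₀ : D) * x * (t₀ : D)⁻¹) (𝓝 1)
        (𝓝 ((t₀ : D) * 1 * (t₀ : D)⁻¹)) :=
      (tendsto_id.const_mul (t₀ : D)).mul_const _
    have h2 := (tendsto_id (x := 𝓝 (1 : D))).inv₀ one_ne_zero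
    have h3 := h1.mul h2
    rw [mul_one, mul_inv_cancel₀ t₀.ne_zero, inv_one, mul_one] at h3
    exact h3
  refine ⟨b * cK, mul_mem hb hcK, mul_ne_zero hb0 hcK0, _, inter_mem (inter_mem (hνt ε hε0)
    (inter_mem hS (hct hO₁))) (inter_mem (hNt _ hS) (hc.eventually (hUv.and hG2))), ?_⟩
  intro E _ X hX u₁ u₂ hu₁ hu₂ hu₁O hu₂O w₁ w₂ hw₁ hw₂ hq₁ hq₂ χ hχ
  obtain ⟨⟨hb₁, -, -⟩, -, hg₁⟩ := hu₁O
  obtain ⟨⟨hb₂, hS₂, hc₂⟩, hN₂, -⟩ := hu₂O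
  have hbu₁ : Bl ν ε u₁ := hb₁
  have hbu₂ : Bl ν ε u₂ := hb₂
  have hw₁b : Near OT K b w₁ := hw₁.mono hcK
  have hw₂b : Near OT K b w₂ := hw₂.mono hcK
  have hw₂K : Near OT K cK w₂ := by
    rw [mul_comm] at hw₂
    exact hw₂.mono hb
  obtain ⟨hUu, C, _, _, _, _, hA, F, φ, hF, hφ⟩ := hg₁
  -- the element `u₁ t₀`
  have hvU : u₁ * t₀ ∈ Ug D := mul_mem hu₁ ht₀.1
  have hvb : Bl ν ε (u₁ * t₀) := hbu₁.mul hε hν ht₀b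
  have hvw : Qt N (u₁ * t₀) w₁ := by
    refine ⟨hq₁.1, ?_⟩
    rw [Units.val_mul, map_mul, ht₀.2, mul_one]
    exact hq₁.2
  have h1 := comm_goodC hN hν hε0 hε hX hb hb0 hI hOν hO₁ hS hSO hO₅ hA hvU hvb hw₁b hvw φ hF
    (by rw [Units.val_mul]; exact hφ)
    (fun y hy => hUu F φ hF hφ y hy) hu₂ (hS₂ u₂ rfl) hN₂ hw₂K hq₂ χ hχ
  have h2 : ⁅u₁ * t₀, u₂⁆ = (u₁ * ⁅t₀, u₂⁆ * u₁⁻¹) * ⁅u₁, u₂⁆ := by
    simp only [commutatorElement_def]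
    group
  have hcO : ((⁅t₀, u₂⁆ : Dˣ) : D) ∈ O₁ := by
    have hc₂' : (t₀ : D) * u₂ * (t₀ : D)⁻¹ * (u₂ : D)⁻¹ ∈ O₁ := hc₂
    rw [commutatorElement_def]
    simpa only [Units.val_mul, Units.val_inv_eq_inv_val] using hc₂'
  have hcb : Bl ν ε ⁅t₀, u₂⁆ := hOν _ hcO
  have hcG : ⁅t₀, u₂⁆ ∈ Gg N := Gg_comm ht₀.1 hu₂
  have h3 : χ (u₁ * ⁅t₀, u₂⁆ * u₁⁻¹) = 1 := by
    rw [hI E X hX χ hχ u₁ w₁ hu₁ hw₁b hq₁ _ hcG hcO]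
    have h4 : ⁅t₀, u₂⁆ = t₀ * (u₂ * t₀ * u₂⁻¹)⁻¹ := by
      rw [commutatorElement_def]
      group
    have h5 : χ (u₂ * t₀ * u₂⁻¹) = χ t₀ :=
      inv_goodC hN hν hε0 hε hνt hX hA₀ ht₀ ht₀b φ₀ hF₀ hφ₀ hu₂ hw₂b hq₂ χ hχ
    rw [h4, hX.mul χ hχ _ _ ht₀ ht₀b (inv_mem (Gg_conj ht₀ hu₂)) ((ht₀b.conj u₂).inv hε hν),
      hX.map_inv hν hε0 hε hχ (Gg_conj ht₀ hu₂) (ht₀b.conj u₂), h5, mul_inv_cancel]
  rw [h2, hX.mul χ hχ _ _ (Gg_conj hcG hu₁) (hcb.conj _) (Gg_comm hu₁ hu₂)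
    (hbu₁.comm hε hν), h3, one_mul] at h1
  exact h1

end Vale.Agent.P011.H496.Typ
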