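import Vale.Agent.P011.H496.Typ.Inv

/-!
# The commutators of the unitary elements close to one: the pairing (helper496)
-/

open Module Polynomial Topology Filter
open scoped commutatorElement

set_option linter.unusedSectionVars false

namespace Vale.Agent.P011.H496.Typ

open Vale.Agent.P011.H699.Odd

variable {K : Type} [Field K] {OT : Subring K}
  {D : Type} [StarRing K] [DivisionRing D] [StarRing D] [Algebra K D]
  {n : ℕ} {N : D →* K} {ι : Type} {ν : ι → AbsoluteValue D ℝ} {ε : ℝ}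

/-- The invariance for the elements of reduced norm one in the set `O₁`. -/
def Inv1S (N : D →* K) {ι : Type} (ν : ι → AbsoluteValue D ℝ) (ε : ℝ) (PK : K → Prop)
    (O₁ : Set D) : Prop :=
  ∀ (E : Type) [CommGroup E] (X : Set (Dˣ → E)), Fam N ν ε X →
    ∀ χ ∈ X, ∀ (u : Dˣ) (w : K), u ∈ Ug D → PK w → Qt N u w → ∀ h : Dˣ, h ∈ Gg N →
      (h : D) ∈ O₁ → χ (u * h * u⁻¹) = χ h

/-- The commutators with the elements of the subgroup `S`. -/
def Cl3T {E : Type} [CommGroup E] (N : D →* K) (X : Set (Dˣ → E)) (v : Dˣ) (S : Subgroup Dˣ)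
    (R : Type) [Field R] [Algebra K R] (P : R → Prop) : Prop :=
  ∀ χ ∈ X, ∀ x : R, x ≠ 0 → P x → ∀ u ∈ Ug D, u ∈ S → Qt N u (Algebra.norm K x) →
    χ ⁅v, u⁆ = 1

/-- A unitary element of the field of `q`, with its value. -/
theorem exists_torus' (hN : Rn n N) {q : Dˣ} (hq : q ∈ Ug D) {z : D} (hz0 : z ≠ 0)
    (hz : z ∈ Algebra.adjoin K {(q : D)}) : ∃ e : Dˣ, e ∈ Ug D ∧ Commute e q ∧ Qt N e (N z) ∧
      (e : D) = z * (star z)⁻¹ := by
  have hs0 : star z ≠ 0 := star_ne_zero.mpr hz0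
  have h1 : Commute z (q : D) := (commute_adjoin hz (Commute.refl _)).symm
  have h2 : Commute (star z) (q : D) := by
    have h3 : Commute (star z) (star (q : D)) := by
      have h4 := congrArg star h1.eq
      rw [star_mul, star_mul] at h4
      exact h4.symm
    rw [star_eq hq] at h3
    exact Commute.units_inv_right_iff.mp h3
  have h4 : Commute (star z) z := commute_adjoin hz h2
  have hN0 : N z ≠ 0 := by
    intro h0
    have h5 : N z * N z⁻¹ = 1 := by rw [← map_mul, mul_inv_cancel₀ hz0, map_one]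
    rw [h0, zero_mul] at h5
    exact zero_ne_one h5
  refine ⟨Units.mk0 (z * (star z)⁻¹) (mul_ne_zero hz0 (inv_ne_zero hs0)), ?_, ?_, ?_, rfl⟩
  · rw [mem_Ug, Units.val_mk0, star_mul, star_inv₀, star_star]
    have h5 : Commute (star z)⁻¹ z⁻¹ := Commute.inv_left₀ (Commute.inv_right₀ h4)
    calc z * (star z)⁻¹ * (z⁻¹ * star z) = z * ((star z)⁻¹ * z⁻¹) * star z := by
          simp only [mul_assoc]
      _ = z * (z⁻¹ * (star z)⁻¹) * star z := by rw [h5.eq]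
      _ = 1 := by
          rw [← mul_assoc, mul_inv_cancel₀ hz0, one_mul, inv_mul_cancel₀ hs0]
  · refine Units.ext ?_
    rw [Units.val_mul, Units.val_mul, Units.val_mk0]
    exact (h1.mul_left h2.inv_left₀).eq
  · refine ⟨hN0, ?_⟩
    rw [Units.val_mk0, ← hN.star, ← map_mul, mul_assoc, inv_mul_cancel₀ hs0, mul_one]

section steps

variable {E : Type} [CommGroup E] {X : Set (Dˣ → E)} {PK : K → Prop} {O₁ : Set D}

theorem comm_invT (hν : Fa ν) (hε0 : 0 < ε) (hε : ε ≤ 1) (hX : Fam N ν ε X)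
    (hI : Inv1S N ν ε PK O₁) (hOν : ∀ x ∈ O₁, ∀ i, ν i (x - 1) < ε) {χ : Dˣ → E} (hχ : χ ∈ X)
    {u g : Dˣ} {w : K} (hu : u ∈ Ug D) (hw : PK w) (huw : Qt N u w) (hg : g ∈ Gg N)
    (hgO : (g : D) ∈ O₁) : χ ⁅u, g⁆ = 1 := by
  have hgb : Bl ν ε g := hOν _ hgO
  rw [commutatorElement_def, hX.mul χ hχ _ _ (Gg_conj hg hu) (hgb.conj u) (inv_mem hg)
    (hgb.inv hε hν), hI E X hX χ hχ u w hu hw huw g hg hgO, hX.map_inv hν hε0 hε hχ hg hgb,
    mul_inv_cancel]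

theorem cl3T_base (hN : Rn n N) (hν : Fa ν) (hε0 : 0 < ε) (hε : ε ≤ 1) (hX : Fam N ν ε X)
    (hI : Inv1S N ν ε PK O₁) (hOν : ∀ x ∈ O₁, ∀ i, ν i (x - 1) < ε) {S : Subgroup Dˣ}
    (hSO : ∀ u ∈ S, (u : D) ∈ O₁) {O₅ : Set D}
    (hO₅ : ∀ z ∈ O₅, ∀ e : Dˣ, (e : D) = z * (star z)⁻¹ → e ∈ S)
    {R : Type} [Field R] [Algebra K R] {P : R → Prop} {v : Dˣ} (hv : v ∈ Ug D)
    {w₁ : K} (hw₁ : PK w₁) (hvw : Qt N v w₁)
    (hb : ∀ x : R, x ≠ 0 → P x → ∃ z : D, z ≠ 0 ∧ z ∈ Algebra.adjoin K {(v : D)} ∧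
      N z = Algebra.norm K x ∧ z ∈ O₅) : Cl3T N X v S R P := by
  intro χ hχ x hx hPx u hu huS hux
  obtain ⟨z, hz0, hz, hNz, hzO⟩ := hb x hx hPx
  obtain ⟨e, he, hc, hw, hez⟩ := exists_torus' hN hv hz0 hz
  have heS : e ∈ S := hO₅ z hzO e hez
  rw [hNz] at hw
  have hg : u * e⁻¹ ∈ Gg N := Qt.quot hu he hux hw
  have hgO : ((u * e⁻¹ : Dˣ) : D) ∈ O₁ := hSO _ (mul_mem huS (inv_mem heS))
  have h1 : ⁅v, u⁆ = ⁅v, u * e⁻¹⁆ := by
    have h2 : e⁻¹ * v⁻¹ * e = v⁻¹ := by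
      rw [(hc.inv_inv).eq, inv_mul_cancel_right]
    have h3 : ⁅v, u * e⁻¹⁆ = v * u * (e⁻¹ * v⁻¹ * e) * u⁻¹ := by
      rw [commutatorElement_def]
      group
    rw [h3, h2, commutatorElement_def]
  rw [h1]
  exact comm_invT hν hε0 hε hX hI hOν hχ hv hw₁ hvw hg hgO

variable [TopologicalSpace D] [IsTopologicalDivisionRing D] [ContinuousStar D]

/-- The element `z / star z` is close to one. -/
theorem tendsto_quot : Tendsto (fun z : D => z * (star z)⁻¹) (𝓝 1) (𝓝 1) := by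
  have h1 : Tendsto (fun z : D => (star z)⁻¹) (𝓝 1) (𝓝 (1 : D)) := by
    have h2 : Tendsto (fun z : D => star z) (𝓝 1) (𝓝 (star (1 : D))) :=
      continuous_star.tendsto 1
    rw [star_one] at h2
    have h3 := h2.inv₀ one_ne_zero
    rwa [inv_one] at h3
  have h4 := (tendsto_id (x := 𝓝 (1 : D))).mul h1
  rwa [one_mul] at h4

/-- the commutator is close to one -/
theorem tendsto_comm2 : Tendsto (fun p : D × D => p.1⁻¹ * (p.2 * (star p.2)⁻¹) * p.1 *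
    (p.2 * (star p.2)⁻¹)⁻¹) (𝓝 1 ×ˢ 𝓝 1) (𝓝 (1 : D)) := by
  have h1 : Tendsto (fun p : D × D => p.1) (𝓝 1 ×ˢ 𝓝 1) (𝓝 (1 : D)) := tendsto_fst
  have h2 : Tendsto (fun p : D × D => p.2 * (star p.2)⁻¹) (𝓝 1 ×ˢ 𝓝 1) (𝓝 (1 : D)) :=
    tendsto_quot.comp tendsto_snd
  have h3 := h1.inv₀ one_ne_zero
  have h4 := h2.inv₀ one_ne_zero
  rw [inv_one] at h3 h4
  have h5 := ((h3.mul h2).mul h1).mul h4
  simpa only [mul_one] using h5

/-- **One step of the tower for the pairing.** -/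
theorem cl3T_step (hN : Rn n N) (hν : Fa ν) (hε0 : 0 < ε) (hε : ε ≤ 1) (hX : Fam N ν ε X)
    (hI : Inv1S N ν ε PK O₁) (hOν : ∀ x ∈ O₁, ∀ i, ν i (x - 1) < ε) (hO₁ : O₁ ∈ 𝓝 (1 : D))
    {S : Subgroup Dˣ} (hS : ∀ᶠ x in 𝓝 (1 : D), ∀ u : Dˣ, (u : D) = x → u ∈ S)
    {R R' : Type} [Field R] [Algebra K R] [Field R']
    [Algebra K R'] [FiniteDimensional K R'] {P : R → Prop} {P' : R' → Prop}
    (hst : StepT N PK R R' P P') {v : Dˣ} (hv : v ∈ Ug D)
    (hvb : Bl ν ε v) {w₁ : K} (hw₁ : PK w₁) (hvw : Qt N v w₁)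
    (hcl : Cl3T N X v S R' P') : Cl3T N X v S R P := by
  classical
  intro χ hχ x hx hPx u hu huS hux
  obtain ⟨O, hO, hOO⟩ := mem_prod_self_iff.mp (tendsto_comm2 (D := D) hO₁)
  have hinv : ∀ᶠ x in 𝓝 (1 : D), x⁻¹ ∈ O₁ := by
    have h1 := (tendsto_id (x := 𝓝 (1 : D))).inv₀ one_ne_zero
    rw [inv_one] at h1
    exact h1 hO₁
  have hqS : ∀ᶠ z in 𝓝 (1 : D), ∀ e : Dˣ, (e : D) = z * (star z)⁻¹ → e ∈ S :=
    (tendsto_quot (D := D)).eventually hS
  obtain ⟨g, hg, hgO, x₁, hx₁, hPx₁, hz⟩ := hst x hx hPx {v} (by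
    intro a ha
    rw [Finset.mem_singleton.mp ha]
    exact hv) (O ∩ ({x | x⁻¹ ∈ O₁} ∩ {z | ∀ e : Dˣ, (e : D) = z * (star z)⁻¹ → e ∈ S}))
    (inter_mem hO (inter_mem hinv hqS))
  obtain ⟨z, hz0, hzm, hNz, hPz, hzO⟩ := hz v (Finset.mem_singleton_self _)
  have hvU : v * g ∈ Ug D := mul_mem hv hg.1
  obtain ⟨e, he, hc, hw, hez⟩ := exists_torus' hN hvU hz0 hzm
  have heS : e ∈ S := hzO.2.2 e hez
  have hu' : e⁻¹ * u ∈ Ug D := mul_mem (inv_mem he) hu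
  have huS' : e⁻¹ * u ∈ S := mul_mem (inv_mem heS) huS
  have hux' : Qt N (e⁻¹ * u) (Algebra.norm K x₁) := by
    have h1 := hw.inv.mul hux
    rwa [← hNz, inv_mul_cancel_left₀ hw.1] at h1
  have h1 : χ ⁅v, u⁆ = χ ⁅v, e⁆ * χ (e * ⁅v, e⁻¹ * u⁆ * e⁻¹) := by
    rw [← comm_mul hν hε hX hχ hv hvb he hu', mul_inv_cancel_left]
  have h2 : χ (e * ⁅v, e⁻¹ * u⁆ * e⁻¹) = 1 :=
    hcl _ (hX.stab χ hχ e he) x₁ hx₁ hPx₁ _ hu' huS' hux'
  -- the commutator with the element of the torus of `v g`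
  have hgi : g⁻¹ ∈ Gg N := inv_mem hg
  have hgiO : ((g⁻¹ : Dˣ) : D) ∈ O₁ := by
    rw [Units.val_inv_eq_inv_val]
    exact hgO.2.1
  have hvgw : Qt N (v * g) w₁ := by
    refine ⟨hvw.1, ?_⟩
    rw [Units.val_mul, map_mul, hg.2, mul_one]
    exact hvw.2
  have h3 : ⁅v, e⁆ = (v * g) * ⁅g⁻¹, e⁆ * (v * g)⁻¹ := by
    have h4 : (v * g) * e⁻¹ * (v * g)⁻¹ = e⁻¹ := by
      rw [hc.symm.inv_right.eq, mul_inv_cancel_right]
    have h5 : (v * g) * ⁅g⁻¹, e⁆ * (v * g)⁻¹ =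
        v * e * g * ((v * g)⁻¹ * ((v * g) * e⁻¹ * (v * g)⁻¹)) := by
      rw [commutatorElement_def]
      group
    rw [h5, h4, commutatorElement_def]
    group
  have hcO : ((⁅g⁻¹, e⁆ : Dˣ) : D) ∈ O₁ := by
    have h5 : (g : D)⁻¹ * (z * (star z)⁻¹) * g * (z * (star z)⁻¹)⁻¹ ∈ O₁ :=
      hOO (show ((g : D), z) ∈ O ×ˢ O from ⟨hgO.1, hzO.1⟩)
    rw [← hez] at h5
    rw [commutatorElement_def]
    simpa only [Units.val_mul, Units.val_inv_eq_inv_val, inv_inv] using h5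
  have hcb : Bl ν ε ⁅g⁻¹, e⁆ := hOν _ hcO
  have h4 : χ ⁅g⁻¹, e⁆ = 1 := by
    have h5 : Bl ν ε ⁅e, g⁻¹⁆ := by
      rw [← commutatorElement_inv]
      exact hcb.inv hε hν
    rw [← commutatorElement_inv, hX.map_inv hν hε0 hε hχ (Gg_comm he hgi.1) h5,
      comm_invT hν hε0 hε hX hI hOν hχ he hPz hw hgi hgiO, inv_one]
  rw [h1, h2, mul_one, h3, hI E X hX χ hχ _ w₁ hvU hw₁ hvgw _ (Gg_comm hgi.1 he) hcO, h4]

/-- **The pairing for an element whose field is contained in `C`.** -/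
theorem comm_goodC (hN : Rn n N) (hν : Fa ν) (hε0 : 0 < ε) (hε : ε ≤ 1) (hX : Fam N ν ε X)
    {b : K} (hb : b ∈ OT) (hb0 : b ≠ 0)
    (hI : Inv1S N ν ε (Near OT K b) O₁) (hOν : ∀ x ∈ O₁, ∀ i, ν i (x - 1) < ε)
    (hO₁ : O₁ ∈ 𝓝 (1 : D)) {S : Subgroup Dˣ}
    (hS : ∀ᶠ x in 𝓝 (1 : D), ∀ u : Dˣ, (u : D) = x → u ∈ S) (hSO : ∀ u ∈ S, (u : D) ∈ O₁)
    {O₅ : Set D} (hO₅ : ∀ z ∈ O₅, ∀ e : Dˣ, (e : D) = z * (star z)⁻¹ → e ∈ S)
    {C : Type} [Field C] [Algebra K C] [FiniteDimensional K C]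
    [IsGalois K C] {cK c' : K} (hA : ArC (D := D) OT n N C cK c') {v : Dˣ} (hv : v ∈ Ug D)
    (hvb : Bl ν ε v) {w₁ : K} (hw₁ : Near OT K b w₁) (hvw : Qt N v w₁)
    {F : IntermediateField K C} (φ : F →ₐ[K] D) (hF : finrank K F = n)
    (hφ : ∀ y, φ y ∈ Algebra.adjoin K {(v : D)}) (hφO : ∀ y : F, Near OT F c' y → φ y ∈ O₅)
    {u : Dˣ} (hu : u ∈ Ug D) (huS : u ∈ S)
    (hβS : ∀ β : Dˣ, (β : D) = algebraMap K D (N (u : D)) → β ∈ S) {w : K}
    (hw : Near OT K cK w) (huw : Qt N u w) : ∀ χ ∈ X, χ ⁅v, u⁆ = 1 := by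
  have key : u ∈ CoS X hν hε hX hv hvb := by
    refine H327.Tower.mem_of_pow_mem _ u (n := n) ?_ fun p hp hpn => ?_
    · obtain ⟨β, hβ, hβg, hβc⟩ := pow_split hN hu
      refine ⟨pow_mem hu n, fun χ hχ => ?_⟩
      have h1 : ⁅v, u ^ n⁆ = ⁅v, u ^ n * β⁻¹⁆ := by
        have h2 : β⁻¹ * v⁻¹ * β = v⁻¹ := by
          rw [(hβc v).inv_inv.eq, inv_mul_cancel_right]
        have h3 : ⁅v, u ^ n * β⁻¹⁆ = v * u ^ n * (β⁻¹ * v⁻¹ * β) * (u ^ n)⁻¹ := by
          rw [commutatorElement_def]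
          group
        rw [h3, h2, commutatorElement_def]
      rw [h1]
      exact comm_invT hν hε0 hε hX hI hOν hχ hv hw₁ hvw hβg
        (hSO _ (mul_mem (pow_mem huS n) (inv_mem (hβS β hβ))))
    · have : Fact p.Prime := ⟨hp⟩
      obtain ⟨f, R, hm, hpR, htop, -, -, hst⟩ := H327.Tower.chainZ (K := K) (L := C) p
      have hcl : ∀ j ≤ f, Cl3T N X v S (R (f - j)) (PC OT (R (f - j)) C c') := by
        intro j
        induction j with
        | zero =>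
          intro _
          have hFR : F ≤ R (f - 0) := by
            rw [Nat.sub_zero, htop]
            exact le_top
          refine cl3T_base hN hν hε0 hε hX hI hOν hSO hO₅ hv hw₁ hvw fun x hx hPx => ?_
          obtain ⟨h1, h2, h3⟩ := exists_norm hN hFR φ hF inferInstance inferInstance hφ x hx
          refine ⟨_, h1, h2, h3, hφO _ ?_⟩
          let i1 : Algebra F (R (f - 0)) :=
            (IntermediateField.inclusion hFR).toRingHom.toAlgebra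
          have i2 : IsScalarTower K F (R (f - 0)) := IsScalarTower.of_algebraMap_eq fun _ => rfl
          have i3 : FiniteDimensional F (R (f - 0)) := FiniteDimensional.right K F _
          refine Near.norm hA.ne hA.mem ?_
          have h4 : ∀ x : R (f - 0), PC OT (R (f - 0)) C c' x → Near OT (R (f - 0)) c' x := by
            rw [Nat.sub_zero, htop]
            intro x hx
            obtain ⟨y, hy0, hy, hyx⟩ := hx c' hA.mem hA.ne
            have h5 : Near OT (⊤ : IntermediateField K C) c'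
                (Algebra.norm (⊤ : IntermediateField K C) y) := hy.norm hA.ne hA.mem
            have h6 : Algebra.norm (⊤ : IntermediateField K C) y ≠ 0 :=
              Algebra.norm_ne_zero_iff.mpr hy0
            have h7 : x = Algebra.norm (⊤ : IntermediateField K C) y *
                (x / Algebra.norm (⊤ : IntermediateField K C) y) := by
              rw [mul_div_cancel₀ _ h6]
            rw [h7]
            exact h5.mul hA.mem hyx
          exact h4 x hPx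
        | succ j ih =>
          intro hj
          have h2 : f - (j + 1) + 1 = f - j := by omega
          have h3 : R (f - (j + 1)) ≤ R (f - (j + 1) + 1) := hm (Nat.le_succ _)
          obtain ⟨h4, h5⟩ := hst (f - (j + 1)) (by omega) h3
          have h6 : StepT N (Near OT K b) (R (f - (j + 1))) (R (f - (j + 1) + 1))
              (PC OT (R (f - (j + 1))) C c') (PC OT (R (f - (j + 1) + 1)) C c') :=
            hA.step p hp hpn _ _ h3 h4 h5 b hb hb0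
          rw [h2] at h6
          exact cl3T_step hN hν hε0 hε hX hI hOν hO₁ hS h6 hv hvb hw₁ hvw (ih (by omega))
      have h6 := hcl f le_rfl
      rw [Nat.sub_self] at h6
      obtain ⟨c₁, hc₁, hc₁0, hno⟩ := hA.no (R 0)
      obtain ⟨x, hx0, hPx, hxw⟩ := exists_bot hA.bot hA.mem hc₁ hc₁0 hno huw.1 hw
      refine ⟨finrank K (R 0), hpR, pow_mem hu _, fun χ hχ => ?_⟩
      refine h6 χ hχ x hx0 hPx _ (pow_mem hu _) (pow_mem huS _) ?_
      rw [hxw]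
      exact huw.pow _
  exact key.2

end steps

end Vale.Agent.P011.H496.Typ
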