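import Vale.Agent.P011.H496.Typ.Pc

/-!
# The commutators of the unitary elements close to one: the two theorems (helper496)
-/

open Module Polynomial Topology Filter
open scoped commutatorElement

set_option linter.unusedSectionVars false

namespace Vale.Agent.P011.H496.Typ

open Vale.Agent.P011.H699.Odd

variable {K : Type} [Field K] {OT : Subring K}
  {D : Type} [StarRing K] [DivisionRing D] [StarRing D] [Algebra K D]
  {n : ℕ} {N : D →* K} {ι : Type} {ν : ι → AbsoluteValue D ℝ}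
  {E : Type} [CommGroup E] {ε : ℝ} {X : Set (Dˣ → E)}

theorem PC.one {R C : Type} [Field R] [Field C] [Algebra K R] [Algebra K C] [Algebra R C]
    {c' : K} : PC OT R C c' (1 : R) := by
  intro d _ _
  refine ⟨1, one_ne_zero, Near.one, ?_⟩
  rw [map_one, div_one]
  exact Near.one

theorem PC.pow {R C : Type} [Field R] [Field C] [Algebra K R] [Algebra K C] [Algebra R C]
    [IsScalarTower K R C] [FiniteDimensional R C] {c' : K} (hc' : c' ∈ OT) {x : R}
    (h : PC OT R C c' x) (m : ℕ) : PC OT R C c' (x ^ m) := by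
  induction m with
  | zero => rw [pow_zero]; exact PC.one
  | succ m ih => rw [pow_succ]; exact ih.mul hc' h

/-- **The element at the bottom of the tower.** -/
theorem exists_bot {R C : Type} [Field R] [Field C] [Algebra K R] [Algebra K C] [Algebra R C]
    [IsScalarTower K R C] [FiniteDimensional K R] [FiniteDimensional K C] {cK c' c₁ : K}
    (hbot : Bot OT C cK c') (hc' : c' ∈ OT) (hc₁ : c₁ ∈ OT) (hc₁0 : c₁ ≠ 0)
    (hno : ∀ z : R, z ≠ 0 → Near OT R c₁ z → PC OT R C c' z) {w : K} (hw0 : w ≠ 0)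
    (hw : Near OT K cK w) : ∃ x : R, x ≠ 0 ∧ PC OT R C c' x ∧
      Algebra.norm K x = w ^ finrank K R := by
  have i1 : FiniteDimensional R C := FiniteDimensional.right K R C
  obtain ⟨y, hy0, hy, hyw⟩ := hbot w hw0 hw c₁ hc₁ hc₁0
  have hNy : Algebra.norm K y ≠ 0 := Algebra.norm_ne_zero_iff.mpr hy0
  have hNy' : Algebra.norm R y ≠ 0 := Algebra.norm_ne_zero_iff.mpr hy0
  have hq0 : w / Algebra.norm K y ≠ 0 := div_ne_zero hw0 hNy
  have hq0' : algebraMap K R (w / Algebra.norm K y) ≠ 0 := (_root_.map_ne_zero _).mpr hq0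
  refine ⟨Algebra.norm R y ^ finrank K R * algebraMap K R (w / Algebra.norm K y),
    mul_ne_zero (pow_ne_zero _ hNy') hq0', ?_, ?_⟩
  · exact ((PC.norm hy0 hy).pow hc' _).mul hc' (hno _ hq0' (hyw.map (Algebra.ofId K R)))
  · rw [map_mul, map_pow, Algebra.norm_norm, Algebra.norm_algebraMap, ← mul_pow,
      mul_div_cancel₀ _ hNy]

/-- The arithmetic hypotheses in the field `C`. -/
structure ArC [TopologicalSpace D] (OT : Subring K) (n : ℕ) (N : D →* K) (C : Type) [Field C]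
    [Algebra K C] (cK c' : K) : Prop where
  mem : c' ∈ OT
  ne : c' ≠ 0
  bot : Bot OT C cK c'
  no : ∀ R : IntermediateField K C, ∃ c₁ ∈ OT, c₁ ≠ 0 ∧ ∀ z : R, z ≠ 0 → Near OT R c₁ z →
    PC OT R C c' z
  step : ∀ p : ℕ, p.Prime → p ∣ n → ∀ (R R' : IntermediateField K C) (h : R ≤ R'),
    IsGalois R (IntermediateField.extendScalars h) →
    finrank R (IntermediateField.extendScalars h) = p → ∀ b ∈ OT, b ≠ 0 →
    StepT N (Near OT K b) R R' (PC OT R C c') (PC OT R' C c')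

variable [TopologicalSpace D]

/-- **The invariance for an element whose field is contained in `C`.** -/
theorem inv_goodC (hN : Rn n N) (hν : Fa ν) (hε0 : 0 < ε) (hε : ε ≤ 1)
    (hνt : ∀ ε : ℝ, 0 < ε → ∀ᶠ x in 𝓝 (1 : D), ∀ i, ν i (x - 1) < ε)
    (hX : Fam N ν ε X) {C : Type} [Field C] [Algebra K C] [FiniteDimensional K C]
    [IsGalois K C] {cK c' : K} (hA : ArC (D := D) OT n N C cK c') {h : Dˣ} (hh : h ∈ Gg N)
    (hhb : Bl ν ε h) {F : IntermediateField K C} (φ : F →ₐ[K] D) (hF : finrank K F = n)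
    (hφ : ∀ y, φ y ∈ Algebra.adjoin K {(h : D)}) {u : Dˣ} (hu : u ∈ Ug D) {w : K}
    (hw : Near OT K cK w) (huw : Qt N u w) : ∀ χ ∈ X, χ (u * h * u⁻¹) = χ h := by
  have key : u ∈ StS X hX.stab h := by
    refine H327.Tower.mem_of_pow_mem _ u (n := n) ?_ fun p hp hpn => ?_
    · obtain ⟨β, -, hβg, hβc⟩ := pow_split hN hu
      refine ⟨pow_mem hu n, fun χ hχ => ?_⟩
      have h1 : u ^ n * h * (u ^ n)⁻¹ = (u ^ n * β⁻¹) * h * (u ^ n * β⁻¹)⁻¹ := by
        have h2 : β⁻¹ * h * β = h := by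
          rw [(hβc h).inv_left.eq, inv_mul_cancel_right]
        calc u ^ n * h * (u ^ n)⁻¹ = u ^ n * (β⁻¹ * h * β) * (u ^ n)⁻¹ := by rw [h2]
          _ = _ := by group
      rw [h1]
      exact hX.inv χ hχ _ _ hβg hh hhb
    · have : Fact p.Prime := ⟨hp⟩
      obtain ⟨f, R, hm, hpR, htop, -, -, hst⟩ := H327.Tower.chainZ (K := K) (L := C) p
      have hcl : ∀ j ≤ f, Cl1 N X h (R (f - j)) (PC OT (R (f - j)) C c') := by
        intro j
        induction j with
        | zero =>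
          intro _
          have hFR : F ≤ R (f - 0) := by
            rw [Nat.sub_zero, htop]
            exact le_top
          exact cl1_base hν hN hX hh hhb fun x hx =>
            ⟨_, exists_norm hN hFR φ hF inferInstance inferInstance hφ x hx⟩
        | succ j ih =>
          intro hj
          have h2 : f - (j + 1) + 1 = f - j := by omega
          have h3 : R (f - (j + 1)) ≤ R (f - (j + 1) + 1) := hm (Nat.le_succ _)
          obtain ⟨h4, h5⟩ := hst (f - (j + 1)) (by omega) h3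
          have h6 : StepT N (Near OT K 1) (R (f - (j + 1))) (R (f - (j + 1) + 1))
              (PC OT (R (f - (j + 1))) C c') (PC OT (R (f - (j + 1) + 1)) C c') :=
            hA.step p hp hpn _ _ h3 h4 h5 1 (one_mem _) one_ne_zero
          rw [h2] at h6
          exact cl1_step hN hν hε0 hε hX (h6.stepH hνt) hh hhb (ih (by omega))
      have h6 := hcl f le_rfl
      rw [Nat.sub_self] at h6
      obtain ⟨c₁, hc₁, hc₁0, hno⟩ := hA.no (R 0)
      obtain ⟨x, hx0, hPx, hxw⟩ := exists_bot hA.bot hA.mem hc₁ hc₁0 hno huw.1 hw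
      refine ⟨finrank K (R 0), hpR, pow_mem hu _, fun χ hχ => ?_⟩
      refine h6 χ hχ x hx0 hPx _ (pow_mem hu _) ?_
      rw [hxw]
      exact huw.pow _
  exact key.2

/-- The elements whose field is contained in a good field. -/
def GoodC (OT : Subring K) (n : ℕ) (N : D →* K) (cK c' : K) (h : D) : Prop :=
  ∃ (C : Type) (_ : Field C) (_ : Algebra K C) (_ : FiniteDimensional K C) (_ : IsGalois K C),
    ArC (D := D) OT n N C cK c' ∧ ∃ (F : IntermediateField K C) (φ : F →ₐ[K] D),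
      finrank K F = n ∧ ∀ y, φ y ∈ Algebra.adjoin K {h}

/-- **(E1)**, the elements of reduced norm one are close to one in the topology of `D`. -/
theorem inv1T [IsTopologicalRing D] (hN : Rn n N) (hν : Fa ν) (hε0 : 0 < ε) (hε : ε ≤ 1)
    (hνt : ∀ ε : ℝ, 0 < ε → ∀ᶠ x in 𝓝 (1 : D), ∀ i, ν i (x - 1) < ε) {t₀ : Dˣ} (ht₀ : t₀ ∈ Gg N)
    (ht₀b : Bl ν ε t₀) {cK c' : K} (hG : ∀ᶠ x in 𝓝 (t₀ : D), GoodC OT n N cK c' x) :
    ∀ᶠ x in 𝓝 (1 : D), ∀ {E : Type} [CommGroup E] {X : Set (Dˣ → E)}, Fam N ν ε X →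
      ∀ χ ∈ X, ∀ (u : Dˣ) (w : K), u ∈ Ug D → Near OT K cK w → Qt N u w → ∀ h : Dˣ, h ∈ Gg N →
        (h : D) = x → χ (u * h * u⁻¹) = χ h := by
  have hc : Tendsto (fun x : D => x * t₀) (𝓝 1) (𝓝 (t₀ : D)) := by
    have h1 : Tendsto (fun x : D => x * t₀) (𝓝 1) (𝓝 (1 * (t₀ : D))) :=
      (continuous_mul_const (t₀ : D)).tendsto 1
    rwa [one_mul] at h1
  filter_upwards [hc.eventually hG, hνt ε hε0] with x hx hxν
  intro E _ X hX χ hχ u w hu hw huw h hh hhx
  have hhb : Bl ν ε h := fun i => by rw [hhx]; exact hxν i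
  obtain ⟨C, _, _, _, _, hA, F, φ, hF, hφ⟩ := hG.self_of_nhds
  obtain ⟨C', _, _, _, _, hA', F', φ', hF', hφ'⟩ := hx
  have h1 := inv_goodC hN hν hε0 hε hνt hX hA ht₀ ht₀b φ hF hφ hu hw huw χ hχ
  have h2 := inv_goodC hN hν hε0 hε hνt hX hA' (mul_mem hh ht₀) (hhb.mul hε hν ht₀b) φ' hF'
    (by rw [Units.val_mul, hhx]; exact hφ') hu hw huw χ hχ
  have h3 : u * (h * t₀) * u⁻¹ = (u * h * u⁻¹) * (u * t₀ * u⁻¹) := by group
  rw [h3, hX.mul χ hχ _ _ (Gg_conj hh hu) (hhb.conj u) (Gg_conj ht₀ hu) (ht₀b.conj u), h1,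
    hX.mul χ hχ _ _ hh hhb ht₀ ht₀b] at h2
  exact mul_right_cancel h2

end Vale.Agent.P011.H496.Typ
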