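import Vale.Agent.P011.H74.Odd.NuF
import Vale.Agent.P011.H961.SplitWF
import Vale.Agent.P011.W.MaxF
import Vale.Agent.P011.H511.HasseApproxF
import Vale.Agent.P011.H756.Herm

/-!
# Elements close to a separable element of maximal degree (helper496)

Let `t` be an element of degree `n` of a central division algebra of dimension `n ^ 2` over a global
function field with separable minimal polynomial, and `N₀` a field over which it splits.  The
minimal polynomials of the elements close to `t` at the places of `T` have degree `n`, are separable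
and split in the completions of `N₀` above `T`.
-/

open Module Polynomial Matrix Topology

set_option linter.unusedSectionVars false

namespace Vale.Agent.P011.H496.Typ

open Vale.Agent.P011.H738 Vale.Agent.P011.H271 Vale.Agent.P011.H271.S3 Vale.Agent.P011.H698
open Vale.Agent.P011.H496.Spl

/-- A positive lower bound for finitely many positive numbers. -/
theorem exists_lb {n : ℕ} (f : Fin n → ℝ) (hf : ∀ i, 0 < f i) : ∃ ε : ℝ, 0 < ε ∧ ∀ i, ε ≤ f i := by
  have h1 : 0 ≤ ∑ i, (f i)⁻¹ := Finset.sum_nonneg fun i _ => (inv_pos.mpr (hf i)).le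
  refine ⟨(1 + ∑ i, (f i)⁻¹)⁻¹, by positivity, fun i => ?_⟩
  have h2 : (f i)⁻¹ ≤ 1 + ∑ i, (f i)⁻¹ := by
    have := Finset.single_le_sum (f := fun i => (f i)⁻¹)
      (fun i _ => (inv_pos.mpr (hf i)).le) (Finset.mem_univ i)
    linarith
  calc (1 + ∑ i, (f i)⁻¹)⁻¹ ≤ ((f i)⁻¹)⁻¹ := inv_anti₀ (inv_pos.mpr (hf i)) h2
    _ = f i := inv_inv _

section loc

variable {L : Type} [NormedField L] [IsUltrametricDist L] [CompleteSpace L] {n : ℕ}

/-- **The split separable polynomials form an open set.** -/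
theorem ss_open (hL : ∀ δ : ℝ, 0 < δ → ∃ c : L, c ≠ 0 ∧ ‖c‖ < δ) {P : L[X]} (hm : P.Monic)
    (hn : P.natDegree = n) (h : SS P) : ∃ ε : ℝ, 0 < ε ∧ ∀ Q : L[X], Q.Monic → Q.natDegree = n →
      (∀ j, ‖(Q - P).coeff j‖ < ε) → SS Q := by
  classical
  obtain ⟨s, hs, hr⟩ := h.exists_roots hn
  obtain ⟨hP, -⟩ := eq_of_roots hm hn.le hs hr
  let e : Fin n ≃ s := (s.equivFinOfCardEq hs).symm
  let r : Fin n → L := fun i => (e i : L)
  have hri : Function.Injective r := Subtype.coe_injective.comp e.injective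
  have hPr : P = ∏ i, (X - C (r i)) := by
    rw [hP, ← Finset.prod_coe_sort s fun x => X - C x]
    exact (Fintype.prod_equiv e _ _ fun i => rfl).symm
  obtain ⟨δ, hδ, hδr⟩ : ∃ δ : ℝ, 0 < δ ∧ ∀ i j : Fin n, i ≠ j → δ ≤ ‖r i - r j‖ := by
    choose f hf hf' using fun i : Fin n => exists_lb (fun j : Fin n => if i = j then 1 else
      ‖r i - r j‖) fun j => by
        split_ifs with hij
        · exact one_pos
        · exact norm_pos_iff.mpr (sub_ne_zero.mpr fun h => hij (hri h))
    obtain ⟨δ, hδ, h1⟩ := exists_lb f hf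
    refine ⟨δ, hδ, fun i j hij => (h1 i).trans ?_⟩
    have h2 := hf' i j
    rwa [if_neg hij] at h2
  choose ε hε hroot using fun i : Fin n => H961.exists_root_near hL r hri i hδ
  obtain ⟨η, hη, hηε⟩ := exists_lb ε hε
  refine ⟨η, hη, fun Q hQm hQn hQ => ?_⟩
  have h1 : ∀ i, ∃ ρ : L, Q.eval ρ = 0 ∧ ‖ρ - r i‖ < δ := fun i => by
    refine hroot i Q hQn.le fun j => ?_
    rw [← hPr]
    exact (hQ j).trans_le (hηε i)
  choose ρ hρ hρr using h1
  have hρi : Function.Injective ρ := by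
    intro i j hij
    by_contra hne
    have h2 := hδr i j hne
    have h3 : r i - r j = (r i - ρ i) + (ρ j - r j) := by rw [hij]; ring
    have h4 : ‖r i - r j‖ < δ := by
      rw [h3]
      refine (IsUltrametricDist.norm_add_le_max _ _).trans_lt (max_lt ?_ (hρr j))
      rw [← norm_neg, neg_sub]
      exact hρr i
    exact absurd h4 (not_lt.mpr h2)
  have h2 := eq_of_roots hQm hQn.le (s := Finset.univ.image ρ)
    (by rw [Finset.card_image_of_injective _ hρi, Finset.card_univ, Fintype.card_fin])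
    (by
      intro x hx
      obtain ⟨i, -, rfl⟩ := Finset.mem_image.1 hx
      exact hρ i)
  rw [h2.1]
  exact ss_prod _

/-- The matrices with a split separable characteristic polynomial form an open set. -/
theorem ss_open_mat (hL : ∀ δ : ℝ, 0 < δ → ∃ c : L, c ≠ 0 ∧ ‖c‖ < δ)
    {A₀ : Matrix (Fin n) (Fin n) L} (h : SS A₀.charpoly) : ∃ η : ℝ, 0 < η ∧
      ∀ A : Matrix (Fin n) (Fin n) L, (∀ i j, ‖(A - A₀) i j‖ ≤ η) → SS A.charpoly := by
  have hdeg : ∀ A : Matrix (Fin n) (Fin n) L, A.charpoly.natDegree = n := fun A => by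
    rw [Matrix.charpoly_natDegree_eq_dim, Fintype.card_fin]
  obtain ⟨ε, hε, hQ⟩ := ss_open hL A₀.charpoly_monic (hdeg A₀) h
  have hO : IsOpen {A : Matrix (Fin n) (Fin n) L |
      ∀ j : Fin (n + 1), ‖A.charpoly.coeff j - A₀.charpoly.coeff j‖ < ε} := by
    have h1 : {A : Matrix (Fin n) (Fin n) L |
        ∀ j : Fin (n + 1), ‖A.charpoly.coeff j - A₀.charpoly.coeff j‖ < ε} =
        ⋂ j : Fin (n + 1), {A | ‖A.charpoly.coeff j - A₀.charpoly.coeff j‖ < ε} := by
      ext A
      rw [Set.mem_iInter]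
      rfl
    rw [h1]
    refine isOpen_iInter_of_finite fun j => ?_
    exact isOpen_lt ((continuous_coeff (Nat.lt_succ_iff.mp j.2)).sub continuous_const).norm
      continuous_const
  have hA₀ : A₀ ∈ {A : Matrix (Fin n) (Fin n) L |
      ∀ j : Fin (n + 1), ‖A.charpoly.coeff j - A₀.charpoly.coeff j‖ < ε} := fun j => by
    rw [sub_self, norm_zero]
    exact hε
  let _ : NormedAddCommGroup (Matrix (Fin n) (Fin n) L) := Matrix.normedAddCommGroup
  obtain ⟨η, hη, hball⟩ := Metric.isOpen_iff.1 hO A₀ hA₀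
  refine ⟨η / 2, half_pos hη, fun A hA => hQ _ A.charpoly_monic (hdeg A) fun j => ?_⟩
  have h2 : A ∈ Metric.ball A₀ η := by
    rw [Metric.mem_ball, dist_eq_norm]
    exact ((Matrix.norm_le_iff (half_pos hη).le).2 hA).trans_lt (half_lt_self hη)
  rw [coeff_sub]
  by_cases hj : j < n + 1
  · exact hball h2 ⟨j, hj⟩
  · rw [coeff_eq_zero_of_natDegree_lt (by rw [hdeg]; omega),
      coeff_eq_zero_of_natDegree_lt (by rw [hdeg]; omega), sub_zero, norm_zero]
    exact hε

end loc

section mat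

variable {K D L : Type} [Field K] [DivisionRing D] [Algebra K D] [Field L] [Algebra K L] {n : ℕ}

open scoped TensorProduct in
/-- **The characteristic polynomial** of an element of maximal degree. -/
theorem charpoly_eq [Algebra.IsCentral K D] [FiniteDimensional K D] (hdeg : finrank K D = n ^ 2)
    (g : D →ₐ[K] Matrix (Fin n) (Fin n) L) {t : D} (ht : (minpoly K t).natDegree = n) :
    (g t).charpoly = (minpoly K t).map (algebraMap K L) := by
  classical
  have hint : IsIntegral K t := IsIntegral.of_finite K t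
  have hn : n ≠ 0 := by
    rw [← ht]
    exact (minpoly.natDegree_pos hint).ne'
  have hli : LinearIndependent K fun i : Fin n => t ^ (i : ℕ) := by
    have h := linearIndependent_pow (K := K) t
    rw [ht] at h
    exact h
  have hinj := (H756.extM_bijective hn hdeg g).1
  have h0 : aeval (g t) ((minpoly K t).map (algebraMap K L)) = 0 := by
    rw [aeval_map_algebraMap, aeval_algHom_apply, minpoly.aeval, map_zero]
  have hm1 : ((minpoly K t).map (algebraMap K L)).Monic := (minpoly.monic hint).map _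
  have hm2 : ((minpoly K t).map (algebraMap K L)).natDegree = n := by rw [natDegree_map, ht]
  have hli' : LinearIndependent L fun i : Fin n => (g t) ^ (i : ℕ) := by
    have h1 := Module.Flat.linearIndependent_one_tmul (S := L) hli
    have h2 := h1.map' (H756.extM g).toLinearMap (LinearMap.ker_eq_bot.mpr hinj)
    have h3 : (fun i : Fin n => (g t) ^ (i : ℕ)) = (H756.extM g).toLinearMap ∘
        fun i : Fin n => (1 : L) ⊗ₜ[K] (t ^ (i : ℕ)) := by
      funext i
      rw [Function.comp_apply, AlgHom.toLinearMap_apply, H756.extM_one_tmul, map_pow]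
    rw [h3]
    exact h2
  have hge : n ≤ (minpoly L (g t)).natDegree := by
    by_contra hlt
    rw [not_le] at hlt
    have hmon := minpoly.monic (Algebra.IsIntegral.isIntegral (R := L) (g t))
    have h1 : ∑ i : Fin n, (minpoly L (g t)).coeff i • (g t) ^ (i : ℕ) = 0 := by
      have h2 := minpoly.aeval L (g t)
      rw [aeval_eq_sum_range' hlt] at h2
      rw [← h2, Finset.sum_range]
    have h2 := Fintype.linearIndependent_iff.mp hli' _ h1 ⟨_, hlt⟩
    have h3 : (minpoly L (g t)).coeff (minpoly L (g t)).natDegree = 1 := hmon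
    rw [h3] at h2
    exact one_ne_zero h2
  have hd1 := Matrix.minpoly_dvd_charpoly (g t)
  have hd2 := minpoly.dvd L (g t) h0
  have hmon := minpoly.monic (Algebra.IsIntegral.isIntegral (R := L) (g t))
  have e1 := eq_of_monic_of_dvd_of_natDegree_le hmon (g t).charpoly_monic hd1 (by
    rw [Matrix.charpoly_natDegree_eq_dim, Fintype.card_fin]
    exact hge)
  have e2 := eq_of_monic_of_dvd_of_natDegree_le hmon hm1 hd2 (by rw [hm2]; exact hge)
  rw [e1, e2]

end mat

section glob

variable {k K D N₀ : Type} [Field k] [Field K] [DivisionRing D]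
  [Algebra k K] [Algebra k D] [Algebra K D] [IsScalarTower k K D] {n N : ℕ}
  [Field N₀] [Algebra K N₀]

/-- A local matrix representation is continuous. -/
theorem rep_small (B : Basis (Fin N) k D) {v : Place k} {V : Place K} {W : Place N₀}
    (hV : Ab V v) (hW : Ab W V) (g : D →ₐ[K] Matrix (Fin n) (Fin n) W.comp) {η : ℝ} (hη : 0 < η) :
    ∃ δ : ℝ, 0 < δ ∧ ∀ x : D, Sm B v δ x → ∀ i j, ‖g x i j‖ ≤ η := by
  obtain ⟨M, hM0, hM⟩ : ∃ M : ℝ, 0 < M ∧ ∀ m i j, ‖g (B m) i j‖ ≤ M := by
    refine ⟨1 + ∑ m, ∑ i, ∑ j, ‖g (B m) i j‖, by positivity, fun m i j => ?_⟩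
    have h1 : ‖g (B m) i j‖ ≤ ∑ j, ‖g (B m) i j‖ :=
      Finset.single_le_sum (f := fun j => ‖g (B m) i j‖) (fun _ _ => norm_nonneg _)
        (Finset.mem_univ j)
    have h2 : ∑ j, ‖g (B m) i j‖ ≤ ∑ i, ∑ j, ‖g (B m) i j‖ :=
      Finset.single_le_sum (f := fun i => ∑ j, ‖g (B m) i j‖)
        (fun _ _ => Finset.sum_nonneg fun _ _ => norm_nonneg _) (Finset.mem_univ i)
    have h3 : ∑ i, ∑ j, ‖g (B m) i j‖ ≤ ∑ m, ∑ i, ∑ j, ‖g (B m) i j‖ :=
      Finset.single_le_sum (f := fun m => ∑ i, ∑ j, ‖g (B m) i j‖)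
        (fun _ _ => Finset.sum_nonneg fun _ _ => Finset.sum_nonneg fun _ _ => norm_nonneg _)
        (Finset.mem_univ m)
    linarith
  obtain ⟨δ₁, hδ₁, h1⟩ := hW.small (ε := η / M) (by positivity)
  obtain ⟨δ, hδ, h2⟩ := hV.small hδ₁
  refine ⟨δ, hδ, fun x hx i j => ?_⟩
  have hx1 : x = ∑ m, B.repr x m • B m := (B.sum_repr x).symm
  have hx2 : g x i j = ∑ m, algebraMap K W.comp (algebraMap k K (B.repr x m)) * g (B m) i j := by
    conv_lhs => rw [hx1]
    rw [map_sum, Matrix.sum_apply]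
    refine Finset.sum_congr rfl fun m _ => ?_
    rw [← algebraMap_smul K (B.repr x m) (B m), map_smul, Matrix.smul_apply, Algebra.smul_def]
  rw [hx2]
  refine IsUltrametricDist.norm_sum_le_of_forall_le_of_nonneg hη.le fun m _ => ?_
  have h3 : ‖algebraMap K W.comp (algebraMap k K (B.repr x m))‖ < η / M := by
    rw [IsScalarTower.algebraMap_apply K N₀ W.comp, norm_alg]
    exact h1 _ (h2 _ (hx m))
  rw [norm_mul]
  calc _ ≤ η / M * M := mul_le_mul h3.le (hM m i j) (norm_nonneg _) (by positivity)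
    _ = η := by field_simp

/-- **The local statement.** -/
theorem kras_loc [Algebra.IsCentral K D] [FiniteDimensional K D] (hdeg : finrank K D = n ^ 2)
    (B : Basis (Fin N) k D) {t : D}
    (ht : (minpoly K t).natDegree = n) (hsep : (minpoly K t).Separable)
    (hN₀ : ((minpoly K t).map (algebraMap K N₀)).Splits) {v : Place k} {V : Place K}
    {W : Place N₀} (hV : Ab V v) (hW : Ab W V) (hle : ∀ x : D, (minpoly K x).natDegree ≤ n) :
    ∃ δ : ℝ, 0 < δ ∧ ∀ x : D, Sm B v δ (x - t) → (minpoly K x).Separable ∧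
      (minpoly K x).natDegree = n ∧ ((minpoly K x).map (algebraMap K W.comp)).Splits := by
  have hint : ∀ x : D, IsIntegral K x := fun x => IsIntegral.of_finite K x
  have hsp : ((minpoly K t).map (algebraMap K W.comp)).Splits := by
    rw [IsScalarTower.algebraMap_eq K N₀ W.comp, ← Polynomial.map_map]
    exact hN₀.map _
  obtain ⟨α, hα⟩ : ∃ α : W.comp, aeval α (minpoly K t) = 0 := by
    obtain ⟨α, hα⟩ := hsp.exists_eval_eq_zero (by
      rw [Polynomial.degree_map]
      exact (minpoly.degree_pos (hint t)).ne')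
    exact ⟨α, by rwa [Polynomial.eval_map_algebraMap] at hα⟩
  obtain ⟨g⟩ := (P011.W.spl_of_root hdeg t ht α hα).exists_algHom
  have hss : SS (g t).charpoly := by
    rw [charpoly_eq hdeg g ht]
    exact ⟨hsp, hsep.map⟩
  obtain ⟨η, hη, hA⟩ := ss_open_mat (fun δ hδ => by
    obtain ⟨z, hz, hz'⟩ := ConF.exists_small W hδ
    exact ⟨algebraMap N₀ W.comp z, (_root_.map_ne_zero _).mpr hz, by rwa [norm_alg]⟩) hss
  obtain ⟨δ, hδ, hx⟩ := rep_small B hV hW g hη
  refine ⟨δ, hδ, fun x hxt => ?_⟩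
  have h1 : SS (g x).charpoly := hA _ fun i j => by
    rw [← map_sub]
    exact hx _ hxt i j
  obtain ⟨h2, h3, h4⟩ := minpoly_of_ss g (hint x) (hle x) h1
  refine ⟨?_, h2, h3⟩
  rw [← h4] at h1
  exact (separable_map _).mp h1.2

/-- **Krasner.** -/
theorem krasner [GFF k] [GFF K] [GFF N₀] [Algebra.IsAlgebraic k K] [Algebra.IsAlgebraic K N₀]
    [Algebra.IsCentral K D] [FiniteDimensional K D] (hdeg : finrank K D = n ^ 2)
    (hle : ∀ x : D, (minpoly K x).natDegree ≤ n)
    (B : Basis (Fin N) k D) {T : Set (Place k)} (hT : T.Finite) (hT0 : T.Nonempty) {t : D}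
    (ht : (minpoly K t).natDegree = n) (hsep : (minpoly K t).Separable)
    (hN₀ : ((minpoly K t).map (algebraMap K N₀)).Splits) :
    ∃ δ : ℝ, 0 < δ ∧ ∀ x : D, (∀ v ∈ T, Sm B v δ (x - t)) → (minpoly K x).Separable ∧
      (minpoly K x).natDegree = n ∧ ∀ V ∈ H74.Odd.abT K T, ∀ W : Place N₀, Ab W V →
        ((minpoly K x).map (algebraMap K W.comp)).Splits := by
  classical
  obtain ⟨S, hS⟩ : ∃ S : Set (Place N₀), S = {W | ∃ V ∈ H74.Odd.abT K T, Ab W V} := ⟨_, rfl⟩
  have hSf : S.Finite := by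
    rw [hS]
    exact (H511.FF.above_finite (K := N₀) (H74.Odd.abT_finite (K := K) hT)).subset
      fun _ ⟨V, hV, h⟩ => ⟨V, hV, H511.FF.av_of_ab h⟩
  have key : ∀ S' : Finset (Place N₀), (∀ W ∈ S', W ∈ S) → ∃ δ : ℝ, 0 < δ ∧ ∀ W ∈ S', ∀ x : D,
      (∀ v ∈ T, Sm B v δ (x - t)) → (minpoly K x).Separable ∧
      (minpoly K x).natDegree = n ∧ ((minpoly K x).map (algebraMap K W.comp)).Splits := by
    intro S'
    induction S' using Finset.induction_on with
    | empty => exact fun _ => ⟨1, one_pos, fun W hW => absurd hW (Finset.notMem_empty _)⟩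
    | insert W S' hW ih =>
      intro h
      obtain ⟨δ₁, hδ₁, h1⟩ := ih fun W' hW' => h W' (Finset.mem_insert_of_mem hW')
      have hWS := h W (Finset.mem_insert_self _ _)
      rw [hS] at hWS
      obtain ⟨V, ⟨v, hv, hVv⟩, hWV⟩ := hWS
      obtain ⟨δ₂, hδ₂, h2⟩ := kras_loc hdeg B ht hsep hN₀ hVv hWV hle
      refine ⟨min δ₁ δ₂, lt_min hδ₁ hδ₂, fun W' hW' x hx => ?_⟩
      rcases Finset.mem_insert.1 hW' with rfl | hW''
      · exact h2 x ((hx v hv).mono (min_le_right _ _))
      · exact h1 W' hW'' x fun v hv => (hx v hv).mono (min_le_left _ _)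
  obtain ⟨δ, hδ, h1⟩ := key hSf.toFinset fun W hW => hSf.mem_toFinset.1 hW
  have h2 : ∀ V ∈ H74.Odd.abT K T, ∀ W : Place N₀, Ab W V → W ∈ hSf.toFinset :=
    fun V hV W hW => hSf.mem_toFinset.2 (by rw [hS]; exact ⟨V, hV, hW⟩)
  obtain ⟨v, hv⟩ := hT0
  obtain ⟨V, hV⟩ := H511.FF.exists_above_ab (K := K) v
  obtain ⟨W, hW⟩ := H511.FF.exists_above_ab (K := N₀) V
  refine ⟨δ, hδ, fun x hx => ?_⟩
  obtain ⟨h3, h4, -⟩ := h1 W (h2 V ⟨v, hv, hV⟩ W hW) x hx
  exact ⟨h3, h4, fun V' hV' W' hW' => (h1 W' (h2 V' hV' W' hW') x hx).2.2⟩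

end glob

end Vale.Agent.P011.H496.Typ
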