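import Vale.Agent.P011.H699.Odd.Tower
import Vale.Agent.P011.H699.Odd.NearL
import Vale.Agent.P011.H699.Odd.OfTN

/-!
# The commutators of the unitary elements close to one: norms from a fixed field (helper496)

`C / K` is a finite Galois extension which contains the field of the element under consideration.
The elements of the tower are approximated by norms from `C` of elements close to one; nothing is
lost in the steps of the tower.  Every characteristic.
-/

open Module Polynomial Topology Filter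
open scoped commutatorElement

set_option linter.unusedSectionVars false

namespace Vale.Agent.P011.H496.Typ

open Vale.Agent.P011.H699.Odd

variable {K : Type} [Field K] {OT : Subring K}

/-- The elements of `K` close to one are approximated by norms from `C` of elements close to
one. -/
def Bot (OT : Subring K) (C : Type) [Field C] [Algebra K C] (cK c' : K) : Prop :=
  ∀ w : K, w ≠ 0 → Near OT K cK w → ∀ d ∈ OT, d ≠ 0 → ∃ y : C, y ≠ 0 ∧ Near OT C c' y ∧
    Near OT K d (w / Algebra.norm K y)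

/-- The element `x` of `R` is approximated by norms from `C` of elements close to one. -/
def PC (OT : Subring K) (R C : Type) [Field R] [Field C] [Algebra K R] [Algebra K C] [Algebra R C]
    (c' : K) (x : R) : Prop :=
  ∀ d ∈ OT, d ≠ 0 → ∃ y : C, y ≠ 0 ∧ Near OT C c' y ∧ Near OT R d (x / Algebra.norm R y)

section pc

variable {R C : Type} [Field R] [Field C] [Algebra K R] [Algebra K C] [Algebra R C]
  [IsScalarTower K R C] [FiniteDimensional R C] {c' : K}

theorem PC.mul (hc' : c' ∈ OT) {x x' : R} (h : PC OT R C c' x) (h' : PC OT R C c' x') :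
    PC OT R C c' (x * x') := by
  intro d hd hd0
  obtain ⟨y, hy0, hy, hyx⟩ := h d hd hd0
  obtain ⟨y', hy0', hy', hyx'⟩ := h' d hd hd0
  refine ⟨y * y', mul_ne_zero hy0 hy0', hy.mul hc' hy', ?_⟩
  rw [map_mul, mul_div_mul_comm]
  exact hyx.mul hd hyx'

theorem PC.norm {y : C} (hy0 : y ≠ 0) (hy : Near OT C c' y) :
    PC OT R C c' (Algebra.norm R y) := by
  intro d _ _
  refine ⟨y, hy0, hy, ?_⟩
  rw [div_self (Algebra.norm_ne_zero_iff.mpr hy0)]
  exact Near.one

/-- At the top of the tower. -/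
theorem PC.near_top (hc' : c' ∈ OT) (hc0 : c' ≠ 0) {x : C} (h : PC OT C C c' x) :
    Near OT C c' x := by
  obtain ⟨y, hy0, hy, hyx⟩ := h c' hc' hc0
  have h1 : x = y * (x / Algebra.norm C y) := by
    have h2 : Algebra.norm C y = y := by simp
    rw [h2, mul_div_cancel₀ _ hy0]
  rw [h1]
  exact hy.mul hc' hyx

end pc

variable {D : Type} [StarRing K] [DivisionRing D] [StarRing D] [Algebra K D]
  {n : ℕ} {N : D →* K} [TopologicalSpace D]

/-- **The arithmetic step** in the topology of `D`. -/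
def StepT (N : D →* K) (PK : K → Prop) (R R' : Type) [Field R] [Algebra K R] [Field R']
    [Algebra K R'] (P : R → Prop) (P' : R' → Prop) : Prop :=
  ∀ x : R, x ≠ 0 → P x → ∀ hs : Finset Dˣ, (∀ h ∈ hs, h ∈ Ug D) → ∀ O ∈ 𝓝 (1 : D),
    ∃ g : Dˣ, g ∈ Gg N ∧ (g : D) ∈ O ∧ ∃ x₁ : R', x₁ ≠ 0 ∧ P' x₁ ∧
      ∀ h ∈ hs, ∃ z : D, z ≠ 0 ∧ z ∈ Algebra.adjoin K {((h * g : Dˣ) : D)} ∧
        N z * Algebra.norm K x₁ = Algebra.norm K x ∧ PK (N z) ∧ z ∈ O

/-- The split elements in the topology of `D`. -/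
def SplT {J : Type} (n : ℕ) (N : D →* K) (Sp : J → K[X] → Prop) : Prop :=
  ∀ (j : J) (hs : Finset Dˣ), (∀ h ∈ hs, h ∈ Ug D) → ∀ O ∈ 𝓝 (1 : D),
    ∃ g : Dˣ, g ∈ Gg N ∧ (g : D) ∈ O ∧ ∀ h ∈ hs,
      (minpoly K ((h * g : Dˣ) : D)).natDegree = n ∧ Sp j (minpoly K ((h * g : Dˣ) : D))

/-- The embeddings of fields are continuous. -/
def EmbT (OT : Subring K) (D : Type) [DivisionRing D] [Algebra K D] [TopologicalSpace D] : Prop :=
  ∀ (F : Type) [Field F] [Algebra K F] [FiniteDimensional K F] [Algebra.IsSeparable K F]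
    (φ : F →ₐ[K] D), ∀ O ∈ 𝓝 (1 : D), ∃ d ∈ OT, d ≠ 0 ∧ ∀ y : F, Near OT F d y → φ y ∈ O

theorem StepT.stepH {PK : K → Prop} {R R' : Type} [Field R] [Algebra K R] [Field R']
    [Algebra K R'] {P : R → Prop} {P' : R' → Prop} (h : StepT N PK R R' P P') {ι : Type}
    {ν : ι → AbsoluteValue D ℝ}
    (hνt : ∀ ε : ℝ, 0 < ε → ∀ᶠ x in 𝓝 (1 : D), ∀ i, ν i (x - 1) < ε) :
    StepH N ν PK R R' P P' := by
  intro x hx hPx hs hsU ε hε
  obtain ⟨g, hg, hgO, x₁, hx₁, hPx₁, hz⟩ := h x hx hPx hs hsU _ (hνt ε hε)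
  refine ⟨g, hg, hgO, x₁, hx₁, hPx₁, fun a ha => ?_⟩
  obtain ⟨z, hz0, hz1, hz2, hz3, hz4⟩ := hz a ha
  exact ⟨z, hz0, hz1, hz2, hz3, hz4⟩

/-- **The arithmetic step.** -/
theorem stepT_of_TN {J : Type} {Sp : J → K[X] → Prop} (hN : Rn n N)
    (hDf : ∀ q : D, IsIntegral K q) (hEmb : EmbT OT D)
    (hSp1 : ∀ j, Sp j 1) (hSpm : ∀ j P Q, Sp j P → Sp j Q → Sp j (P * Q))
    (hSps : ∀ j q, Irreducible q → Sp j q → q.Separable)
    (hSpl : SplT n N Sp) {cK : K} (hcK0 : cK ≠ 0) (hcK : cK ∈ OT)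
    {R R' : Type} [Field R] [Algebra K R] [Field R'] [Algebra K R'] [Algebra R R']
    [IsScalarTower K R R'] [FiniteDimensional K R] [FiniteDimensional K R']
    {c c' : K} (hTN : TN OT Sp R R' c c') :
    StepT N (Near OT K cK) R R' (Near OT R c) (Near OT R' c') := by
  classical
  intro x hx hPx hs hsU O hO
  obtain ⟨j, hj⟩ := hTN x hx hPx
  obtain ⟨g, hg, hgb, hgs⟩ := hSpl j hs hsU O hO
  -- the compositum
  set P : K[X] := ∏ h ∈ hs, minpoly K ((h * g : Dˣ) : D) with hP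
  have hSpP : Sp j P := by
    rw [hP]
    refine Finset.prod_induction _ (Sp j) (fun a b => hSpm j a b) (hSp1 j) fun h hh => (hgs h hh).2
  let M := (P.map (algebraMap K R)).SplittingField
  have hP0 : P ≠ 0 := by
    rw [hP]
    exact Finset.prod_ne_zero_iff.mpr fun a _ => minpoly.ne_zero (hDf _)
  have hfM : FiniteDimensional K M := FiniteDimensional.trans K R M
  -- the fields
  have hfld : ∀ h ∈ hs, ∃ d ∈ OT, d ≠ 0 ∧ ∃ (F : IntermediateField K M) (φ : F →ₐ[K] D),
      finrank K F = n ∧ (∀ y, φ y ∈ Algebra.adjoin K {((h * g : Dˣ) : D)}) ∧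
      ∀ y : F, Near OT F d y → φ y ∈ O := by
    intro h hh
    obtain ⟨θ, hθ⟩ : ∃ θ : M, aeval θ (minpoly K ((h * g : Dˣ) : D)) = 0 := by
      have h1 : (P.map (algebraMap K M)).Splits := by
        have h2 := (Polynomial.IsSplittingField.splits M (P.map (algebraMap K R)))
        rwa [Polynomial.map_map, ← IsScalarTower.algebraMap_eq] at h2
      have h3 : minpoly K ((h * g : Dˣ) : D) ∣ P := Finset.dvd_prod_of_mem _ hh
      have h4 : ((minpoly K ((h * g : Dˣ) : D)).map (algebraMap K M)).Splits :=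
        Polynomial.Splits.of_dvd h1
          ((Polynomial.map_ne_zero_iff (algebraMap K M).injective).mpr hP0)
          (Polynomial.map_dvd _ h3)
      obtain ⟨θ, hθ⟩ := h4.exists_eval_eq_zero (by
        rw [Polynomial.degree_map]
        exact (minpoly.degree_pos (hDf _)).ne')
      exact ⟨θ, by rwa [Polynomial.eval_map_algebraMap] at hθ⟩
    obtain ⟨F, φ, hF, hFf, hφ, hFe⟩ := exists_field (hDf ((h * g : Dˣ) : D)) θ hθ
    have hFs : Algebra.IsSeparable K F := by
      have hm : minpoly K ((h * g : Dˣ) : D) = minpoly K θ :=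
        minpoly.eq_of_irreducible_of_monic (minpoly.irreducible (hDf _)) hθ
          (minpoly.monic (hDf _))
      rw [hFe]
      refine (IntermediateField.isSeparable_adjoin_simple_iff_isSeparable (F := K)
        (E := M)).mpr ?_
      unfold IsSeparable
      rw [← hm]
      exact hSps j _ (minpoly.irreducible (hDf _)) (hgs h hh).2
    obtain ⟨d, hdO, hd0, hd⟩ := hEmb F φ O hO
    exact ⟨d, hdO, hd0, F, φ, hF.trans (hgs h hh).1, hφ, hd⟩
  choose! d hdO hd0 hfl using hfld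
  set d₀ : K := ∏ h ∈ hs, d h with hd₀
  have hd₀O : d₀ ∈ OT := prod_mem hdO
  have hd₀0 : d₀ ≠ 0 := Finset.prod_ne_zero_iff.mpr hd0
  obtain ⟨x₁, y₁, hx₁, hy₁, hxy, hnx, hny⟩ := hj M P hSpP
    (Polynomial.IsSplittingField.splittingField _) (cK * d₀) (mul_ne_zero hcK0 hd₀0)
  refine ⟨g, hg, hgb, x₁, hx₁, hnx, fun h hh => ?_⟩
  obtain ⟨F, φ, hFn, hφ, hFd⟩ := hfl h hh
  have : FiniteDimensional F M := FiniteDimensional.right K F M
  have hcd : cK * d₀ ∈ OT := mul_mem hcK hd₀O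
  have hcd0 : cK * d₀ ≠ 0 := mul_ne_zero hcK0 hd₀0
  have hny' : Near OT F (cK * d₀) (Algebra.norm F y₁) := hny.norm hcd0 hcd
  refine ⟨φ (Algebra.norm F y₁), ?_, hφ _, ?_, ?_, ?_⟩
  · rw [_root_.map_ne_zero]
    exact Algebra.norm_ne_zero_iff.mpr hy₁
  · rw [hN.fld F φ _ hFn, Algebra.norm_norm, hxy, map_mul, Algebra.norm_norm,
      Algebra.norm_norm, mul_comm]
  · rw [hN.fld F φ _ hFn, Algebra.norm_norm]
    have h1 : Near OT K (cK * d₀) (Algebra.norm K y₁) := hny.norm hcd0 hcd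
    exact h1.mono hd₀O
  · refine hFd _ ?_
    have h1 : cK * d₀ = d h * (cK * ∏ a ∈ hs.erase h, d a) := by
      rw [hd₀, ← Finset.mul_prod_erase hs d hh]
      ring
    rw [h1] at hny'
    exact hny'.mono (mul_mem hcK (prod_mem fun a ha => hdO a (Finset.mem_of_mem_erase ha)))

/-- **The step for the elements approximated by norms from `C`.** -/
theorem stepT_pc {PK : K → Prop} {R R' C : Type} [Field R] [Field R'] [Field C] [Algebra K R]
    [Algebra K R'] [Algebra K C] [Algebra R R'] [Algebra R C] [Algebra R' C]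
    [IsScalarTower K R R'] [IsScalarTower K R C] [IsScalarTower K R' C] [IsScalarTower R R' C]
    [FiniteDimensional K R] [FiniteDimensional K R'] [FiniteDimensional K C] {c' c₁ c₂ : K}
    (hc' : c' ∈ OT) (hc₂ : c₂ ∈ OT) (hc₂0 : c₂ ≠ 0)
    (hno : ∀ z : R', z ≠ 0 → Near OT R' c₁ z → PC OT R' C c' z)
    (hst : StepT N PK R R' (Near OT R c₂) (Near OT R' c₁)) :
    StepT N PK R R' (PC OT R C c') (PC OT R' C c') := by
  have i1 : FiniteDimensional R C := FiniteDimensional.right K R C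
  have i2 : FiniteDimensional R' C := FiniteDimensional.right K R' C
  intro x hx hPx hs hsU O hO
  obtain ⟨y, hy0, hy, hyx⟩ := hPx c₂ hc₂ hc₂0
  have hNy : Algebra.norm R y ≠ 0 := Algebra.norm_ne_zero_iff.mpr hy0
  have hNy' : Algebra.norm R' y ≠ 0 := Algebra.norm_ne_zero_iff.mpr hy0
  obtain ⟨g, hg, hgO, x₁, hx₁, hPx₁, hz⟩ := hst _ (div_ne_zero hx hNy) hyx hs hsU O hO
  refine ⟨g, hg, hgO, Algebra.norm R' y * x₁, mul_ne_zero hNy' hx₁,
    (PC.norm hy0 hy).mul hc' (hno x₁ hx₁ hPx₁), fun h hh => ?_⟩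
  obtain ⟨z, hz0, hz1, hz2, hz3, hz4⟩ := hz h hh
  refine ⟨z, hz0, hz1, ?_, hz3, hz4⟩
  have h1 : x = Algebra.norm R y * (x / Algebra.norm R y) := by
    rw [mul_div_cancel₀ _ hNy]
  conv_rhs => rw [h1]
  rw [map_mul, map_mul, ← hz2, Algebra.norm_norm, Algebra.norm_norm]
  ring

end Vale.Agent.P011.H496.Typ
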